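import Mathlib

namespace Vale.Agent.P036

open Finset Matrix

lemma uniform {G H : Type*} [AddGroup G] [AddGroup H] [Fintype G] [Fintype H] (f : G →+ H)
    (hf : Function.Surjective f) (p : H → Prop) [DecidablePred p] :
    (univ.filter fun g => p (f g)).card * Fintype.card H =
      (univ.filter p).card * Fintype.card G := by
  classical
  obtain ⟨c, hc⟩ : ∃ c, c = (univ.filter fun g => f g = 0).card := ⟨_, rfl⟩
  have h1 : ∀ h, (univ.filter fun g => f g = h).card = c := fun h =>
    hc ▸ AddMonoidHom.card_fiber_eq_of_mem_range f (hf h) (hf 0)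
  have h2 : ∀ (p : H → Prop) [DecidablePred p],
      (univ.filter fun g => p (f g)).card = (univ.filter p).card * c := by
    intro p _
    rw [card_eq_sum_card_fiberwise (f := f) (t := univ.filter p)
      (fun g hg => by simpa using hg), ← smul_eq_mul, ← sum_const]
    refine sum_congr rfl fun h hh => ?_
    rw [← h1 h, filter_filter]
    congr 1
    ext g
    simp only [mem_filter, mem_univ, true_and, and_iff_right_iff_imp] at hh ⊢
    rintro rfl
    exact hh
  have h3 := h2 (fun _ => True)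
  simp only [filter_true, card_univ] at h3
  rw [h2, h3]
  ring

variable {F : Type*} [Field F]

lemma exists_cap {ι : Type*} [Fintype ι] [Fintype F] (hF : ringChar F ≠ 2)
    (hι : Fintype.card ι ≤ Fintype.card F ^ 2) :
    ∃ v : ι → Fin 3 → F, ∀ i j k, i ≠ j → i ≠ k → j ≠ k →
      crossProduct (v j - v i) (v k - v i) ≠ 0 := by
  obtain ⟨ν, hν⟩ := FiniteField.exists_nonsquare hF
  obtain ⟨t⟩ : Nonempty (ι ↪ F × F) :=
    Function.Embedding.nonempty_of_card_le (by rwa [Fintype.card_prod, ← sq])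
  have an : ∀ x y : F, x ^ 2 - ν * y ^ 2 = 0 → x = 0 ∧ y = 0 := by
    intro x y h
    by_cases hy : y = 0
    · subst hy; simpa using h
    · exact absurd ⟨x / y, by field_simp; linear_combination -h⟩ hν
  refine ⟨fun i => ![(t i).1, (t i).2, (t i).1 ^ 2 - ν * (t i).2 ^ 2], fun i j k hij hik hjk h => ?_⟩
  rw [cross_apply] at h
  have e0 := congrFun h 0
  have e1 := congrFun h 1
  have e2 := congrFun h 2
  simp only [Pi.sub_apply, cons_val_zero, cons_val_one, Matrix.cons_val, Pi.zero_apply] at e0 e1 e2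
  clear h
  have ne : ∀ i j, i ≠ j → ((t j).1 - (t i).1) ^ 2 - ν * ((t j).2 - (t i).2) ^ 2 ≠ 0 := by
    intro i j hij h
    obtain ⟨h1, h2⟩ := an _ _ h
    exact hij (t.injective (Prod.ext (sub_eq_zero.1 h1).symm (sub_eq_zero.1 h2).symm))
  have n1 := ne i j hij
  have n2 := ne i k hik
  have n3 := ne j k hjk
  generalize (t i).1 = x0 at *
  generalize (t i).2 = y0 at *
  generalize (t j).1 = x1 at *
  generalize (t j).2 = y1 at *
  generalize (t k).1 = x2 at *
  generalize (t k).2 = y2 at *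
  obtain ⟨A, hA⟩ : ∃ A, A = (x1 - x0) ^ 2 - ν * (y1 - y0) ^ 2 := ⟨_, rfl⟩
  obtain ⟨B, hB⟩ : ∃ B, B = (x2 - x0) ^ 2 - ν * (y2 - y0) ^ 2 := ⟨_, rfl⟩
  have f1 : (x1 - x0) * B = (x2 - x0) * A := by
    rw [hA, hB]; linear_combination -e1 + 2 * ν * y0 * e2
  have f2 : (y1 - y0) * B = (y2 - y0) * A := by
    rw [hA, hB]; linear_combination e0 + 2 * x0 * e2
  rw [← hA] at n1
  rw [← hB] at n2
  have f3 : A * B * (B - A) = 0 := by
    linear_combination B ^ 2 * hA - A ^ 2 * hB + ((x1 - x0) * B + (x2 - x0) * A) * f1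
      - ν * ((y1 - y0) * B + (y2 - y0) * A) * f2
  have f4 : B = A := sub_eq_zero.1 ((mul_eq_zero.1 f3).resolve_left (mul_ne_zero n1 n2))
  rw [f4] at f1 f2
  have g1 := mul_right_cancel₀ n1 f1
  have g2 := mul_right_cancel₀ n1 f2
  apply n3
  rw [sub_left_injective g1, sub_left_injective g2]
  ring

lemma cross_mulVec {B : Matrix (Fin 3) (Fin 3) F} (hB : B.det ≠ 0) {u w : Fin 3 → F}
    (h : crossProduct u w ≠ 0) : crossProduct (B *ᵥ u) (B *ᵥ w) ≠ 0 := by
  rw [crossProduct_ne_zero_iff_linearIndependent, LinearIndependent.pair_iff] at h ⊢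
  intro s t hst
  refine h s t (eq_zero_of_mulVec_eq_zero hB ?_)
  rw [mulVec_add, mulVec_smul, mulVec_smul, hst]

lemma exists_mulVec {u w : Fin 3 → F} (h : crossProduct u w ≠ 0) (z z' : Fin 3 → F) :
    ∃ B : Matrix (Fin 3) (Fin 3) F, B *ᵥ u = z ∧ B *ᵥ w = z' := by
  rw [crossProduct_ne_zero_iff_linearIndependent] at h
  obtain ⟨g, hg⟩ := LinearMap.exists_leftInverse_of_injective
    (Fintype.linearCombination F ![u, w])
    (LinearMap.ker_eq_bot.2 h.fintypeLinearCombination_injective)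
  have h0 := LinearMap.congr_fun hg (Pi.single 0 1)
  have h1 := LinearMap.congr_fun hg (Pi.single 1 1)
  simp only [LinearMap.comp_apply, Fintype.linearCombination_apply_single, one_smul,
    cons_val_zero, cons_val_one, LinearMap.id_apply] at h0 h1
  refine ⟨LinearMap.toMatrix' ((Fintype.linearCombination F ![z, z']).comp g), ?_, ?_⟩
  · rw [LinearMap.toMatrix'_mulVec, LinearMap.comp_apply, h0]; simp
  · rw [LinearMap.toMatrix'_mulVec, LinearMap.comp_apply, h1]; simp

lemma card_invertible [Fintype F] [DecidableEq F] (hF : 5 ≤ Fintype.card F) :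
    Fintype.card (Matrix (Fin 3) (Fin 3) F) ≤
      2 * (univ.filter fun B : Matrix (Fin 3) (Fin 3) F => B.det ≠ 0).card := by
  have h1 : Nat.card (GL (Fin 3) F) ≤
      (univ.filter fun B : Matrix (Fin 3) (Fin 3) F => B.det ≠ 0).card := by
    rw [Nat.card_eq_fintype_card, ← card_univ]
    refine card_le_card_of_injOn (fun g => (g : Matrix (Fin 3) (Fin 3) F)) (fun g _ => ?_)
      (fun g _ g' _ h => Units.ext h)
    simpa using g.det_ne_zero
  rw [card_GL_field, Fin.prod_univ_three] at h1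
  refine le_trans ?_ (Nat.mul_le_mul_left _ h1)
  have h2 : Fintype.card (Matrix (Fin 3) (Fin 3) F) = Fintype.card F ^ 9 := by
    rw [← Fintype.card_congr (Matrix.of (m := Fin 3) (n := Fin 3) (α := F)), Fintype.card_fun,
      Fintype.card_fun, Fintype.card_fin, ← pow_mul]
  rw [h2]
  generalize Fintype.card F = q at hF
  have e0 : 125 * 1 ≤ q ^ 3 := by
    calc 125 * 1 = 5 ^ 3 := by norm_num
      _ ≤ q ^ 3 := Nat.pow_le_pow_left hF 3
  have e1 : 25 * q ≤ q ^ 3 := by nlinarith [Nat.mul_le_mul hF hF]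
  have e2 : 5 * q ^ 2 ≤ q ^ 3 := by nlinarith
  simp only [Fin.val_zero, pow_zero, Fin.val_one, pow_one, Fin.val_two]
  have : q ^ 9 = q ^ 3 * q ^ 3 * q ^ 3 := by ring
  rw [this]
  generalize q ^ 3 = z at *
  have a0 : 124 * z ≤ 125 * (z - 1) := by omega
  have a1 : 24 * z ≤ 25 * (z - q) := by omega
  have a2 : 4 * z ≤ 5 * (z - q ^ 2) := by omega
  have := Nat.mul_le_mul (Nat.mul_le_mul a0 a1) a2
  nlinarith [Nat.zero_le (z * z * z)]

end Vale.Agent.P036
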