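import Mathlib

namespace Vale.Agent.P036

open Finset

lemma sum_le_of_fiber {α β : Type*} [DecidableEq β] (s : Finset α) (f : α → β) (w : α → ℝ)
    (c : β → ℝ) (h : ∀ x ∈ s, ∑ y ∈ s.filter (fun y => f y = f x), w y ≤ c (f x)) :
    ∑ x ∈ s, w x ≤ ∑ y ∈ s.image f, c y := by
  rw [← sum_fiberwise_of_maps_to (g := f) (t := s.image f) (fun x hx => mem_image_of_mem f hx)]
  refine sum_le_sum fun y hy => ?_
  obtain ⟨x, hx, rfl⟩ := mem_image.1 hy
  exact h x hx

lemma sum_le_mul_of_fiber {α β : Type*} [DecidableEq β] (s : Finset α) (f : α → β) (w : α → ℝ)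
    (K c : ℝ) (hc : 0 ≤ c) (h1 : ((s.image f).card : ℝ) ≤ K)
    (h : ∀ x ∈ s, ∑ y ∈ s.filter (fun y => f y = f x), w y ≤ c) :
    ∑ x ∈ s, w x ≤ K * c := by
  refine (sum_le_of_fiber s f w (fun _ => c) h).trans ?_
  rw [sum_const, nsmul_eq_mul]
  exact mul_le_mul_of_nonneg_right h1 hc

lemma card_le_sum_of_fiber {α β : Type*} [DecidableEq β] (s : Finset α) (f : α → β)
    (c : β → ℝ) (h : ∀ x ∈ s, ((s.filter (fun y => f y = f x)).card : ℝ) ≤ c (f x)) :
    (s.card : ℝ) ≤ ∑ y ∈ s.image f, c y := by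
  have := sum_le_of_fiber s f (fun _ => (1 : ℝ)) c (by simpa using h)
  simpa using this

lemma card_le_mul_of_fiber {α β : Type*} [DecidableEq β] (s : Finset α) (f : α → β)
    (K c : ℝ) (hc : 0 ≤ c) (h1 : ((s.image f).card : ℝ) ≤ K)
    (h : ∀ x ∈ s, ((s.filter (fun y => f y = f x)).card : ℝ) ≤ c) :
    (s.card : ℝ) ≤ K * c := by
  have := sum_le_mul_of_fiber s f (fun _ => (1 : ℝ)) K c hc h1 (by simpa using h)
  simpa using this

/-- Pairwise congruent integers in a window. -/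
lemma card_le_of_cong {α : Type*} (s : Finset α) (f : α → ℤ) (m : ℤ) (hm : 0 < m) (l : ℝ)
    (hl : 0 ≤ l) (hinj : ∀ x ∈ s, ∀ y ∈ s, f x = f y → x = y)
    (hdiff : ∀ x ∈ s, ∀ y ∈ s, ((f x - f y : ℤ) : ℝ) ≤ l)
    (hcong : ∀ x ∈ s, ∀ y ∈ s, m ∣ f x - f y) : (s.card : ℝ) ≤ l / m + 1 := by
  have hm' : (0 : ℝ) < m := by exact_mod_cast hm
  rcases s.eq_empty_or_nonempty with rfl | hs
  · simp only [card_empty, Nat.cast_zero]; positivity
  obtain ⟨x0, hx0, hmin⟩ := s.exists_min_image f hs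
  have h1 : s.card ≤ (range (⌊l / m⌋₊ + 1)).card := by
    refine card_le_card_of_injOn (fun x => ((f x - f x0) / m).toNat) ?_ ?_
    · intro x hx
      obtain ⟨t, ht⟩ := hcong x hx x0 hx0
      have h0 : 0 ≤ t := by
        have := hmin x hx
        by_contra hneg
        push Not at hneg
        nlinarith
      have h2 := hdiff x hx x0 hx0
      simp only [ht, coe_range, Set.mem_Iio, Int.mul_ediv_cancel_left _ hm.ne']
      rw [Nat.lt_succ_iff]
      apply Nat.le_floor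
      rw [le_div_iff₀ hm']
      rw [ht] at h2
      have : ((t.toNat : ℤ) : ℝ) = t := by rw [Int.toNat_of_nonneg h0]
      push_cast at this h2
      rw [this]; linarith
    · intro x hx y hy hxy
      obtain ⟨t, ht⟩ := hcong x hx x0 hx0
      obtain ⟨t', ht'⟩ := hcong y hy x0 hx0
      have h0 : 0 ≤ t := by
        have := hmin x hx
        by_contra hneg
        push Not at hneg
        nlinarith
      have h0' : 0 ≤ t' := by
        have := hmin y hy
        by_contra hneg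
        push Not at hneg
        nlinarith
      simp only [ht, ht', Int.mul_ediv_cancel_left _ hm.ne'] at hxy
      have : t = t' := by omega
      apply hinj x hx y hy
      subst this; linarith
  rw [card_range] at h1
  have h2 : (s.card : ℝ) ≤ (⌊l / m⌋₊ : ℝ) + 1 := by exact_mod_cast h1
  have h3 := Nat.floor_le (show 0 ≤ l / m by positivity)
  linarith

lemma card_le_of_abs_lt {α : Type*} (s : Finset α) (f : α → ℤ) (F : ℤ) (hF : 0 < F)
    (hinj : ∀ x ∈ s, ∀ y ∈ s, f x = f y → x = y) (h : ∀ x ∈ s, |f x| < F) :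
    (s.card : ℝ) ≤ 2 * F := by
  have hF' : (1 : ℝ) ≤ F := by exact_mod_cast hF
  have := card_le_of_cong s f 1 one_pos (2 * F - 2) (by linarith) hinj
    (fun x hx y hy => by
      have h1 := abs_lt.1 (h x hx)
      have h2 := abs_lt.1 (h y hy)
      have : f x - f y ≤ 2 * F - 2 := by omega
      exact_mod_cast this) (fun _ _ _ _ => one_dvd _)
  simp only [Int.cast_one, div_one] at this
  linarith

lemma card_le_of_lt {α : Type*} (s : Finset α) (f : α → ℤ) (F : ℤ) (hF : 0 < F)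
    (hinj : ∀ x ∈ s, ∀ y ∈ s, f x = f y → x = y) (h : ∀ x ∈ s, 0 ≤ f x ∧ f x < F) :
    (s.card : ℝ) ≤ F := by
  have hF' : (1 : ℝ) ≤ F := by exact_mod_cast hF
  have := card_le_of_cong s f 1 one_pos (F - 1) (by linarith) hinj
    (fun x hx y hy => by
      have h1 := h x hx
      have h2 := h y hy
      have : f x - f y ≤ F - 1 := by omega
      exact_mod_cast this) (fun _ _ _ _ => one_dvd _)
  simp only [Int.cast_one, div_one] at this
  linarith

lemma exists_gcd_split (U U' : ℤ) (hU : U ≠ 0) :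
    ∃ k k' : ℤ, U = (Int.gcd U U' : ℤ) * k ∧ U' = (Int.gcd U U' : ℤ) * k' ∧ IsCoprime k k' := by
  have hd : 0 < Int.gcd U U' := Int.gcd_pos_of_ne_zero_left _ hU
  obtain ⟨k, k', h1, h2, h3⟩ := Int.exists_gcd_one hd
  exact ⟨k, k', by linarith, by linarith, Int.isCoprime_iff_gcd_eq_one.2 h1⟩

/-- The number of shears and heights giving a small determinant. -/
lemma lemmaA {α : Type*} (s : Finset α) (sv V V' : α → ℤ) (U U' W W' Q N : ℤ) (hQ : 0 < Q)
    (hU : U ≠ 0) (hUN : |U| ≤ N)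
    (hinj : ∀ x ∈ s, ∀ y ∈ s, sv x = sv y → V x = V y → V' x = V' y → x = y)
    (hs : ∀ x ∈ s, 0 ≤ sv x ∧ sv x < Q) (hV : ∀ x ∈ s, |V x| < N)
    (h1 : ∀ x ∈ s, Q ∣ V x - W - sv x * U) (h2 : ∀ x ∈ s, Q ∣ V' x - W' - sv x * U')
    (h3 : ∀ x ∈ s, 2 * |U * V' x - U' * V x| < Q) :
    (s.card : ℝ) ≤ 6 * N * ((Int.gcd U U' : ℝ) / |(U : ℝ)|) := by
  obtain ⟨k, k', hk, hk', hco⟩ := exists_gcd_split U U' hU
  have hd0 : 0 < Int.gcd U U' := Int.gcd_pos_of_ne_zero_left _ hU
  obtain ⟨d, hd⟩ : ∃ d : ℤ, d = (Int.gcd U U' : ℤ) := ⟨_, rfl⟩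
  have hdr : (Int.gcd U U' : ℝ) = d := by rw [hd]; simp
  rw [← hd] at hk hk'
  have hdpos : 0 < d := by rw [hd]; exact_mod_cast hd0
  have hk0 : k ≠ 0 := by rintro rfl; simp at hk; exact hU hk
  have hg0 : 0 < Int.gcd Q d := Int.gcd_pos_of_ne_zero_left _ hQ.ne'
  obtain ⟨Q1, d1, hQ1, hd1, hco1⟩ := exists_gcd_split Q d hQ.ne'
  obtain ⟨g, hg⟩ : ∃ g : ℤ, g = (Int.gcd Q d : ℤ) := ⟨_, rfl⟩
  rw [← hg] at hQ1 hd1
  have hgpos : 0 < g := by rw [hg]; exact_mod_cast hg0
  have hQ1pos : 0 < Q1 := by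
    by_contra hneg
    push Not at hneg
    nlinarith
  have hd1pos : 0 < d1 := by
    by_contra hneg
    push Not at hneg
    nlinarith
  have key : ∀ x ∈ s, ∀ y ∈ s, ∃ t : ℤ, V x - V y = t * k ∧ V' x - V' y = t * k' ∧
      Q ∣ t - (sv x - sv y) * d := by
    intro x hx y hy
    obtain ⟨c1, hc1⟩ := h1 x hx
    obtain ⟨c2, hc2⟩ := h2 x hx
    obtain ⟨c3, hc3⟩ := h1 y hy
    obtain ⟨c4, hc4⟩ := h2 y hy
    have e1 : Q ∣ (U * V' x - U' * V x) - (U * V' y - U' * V y) :=
      ⟨U * (c2 - c4) - U' * (c1 - c3), by linear_combination U * (hc2 - hc4) - U' * (hc1 - hc3)⟩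
    have e2 : (U * V' x - U' * V x) - (U * V' y - U' * V y) = 0 := by
      apply Int.eq_zero_of_abs_lt_dvd e1
      have a1 := h3 x hx
      have a2 := h3 y hy
      have a3 := abs_sub (U * V' x - U' * V x) (U * V' y - U' * V y)
      linarith
    have e3 : k * (V' x - V' y) = k' * (V x - V y) := by
      apply mul_left_cancel₀ hdpos.ne'
      rw [hk, hk'] at e2
      linear_combination e2
    have e4 : k ∣ V x - V y := hco.dvd_of_dvd_mul_left ⟨_, e3.symm⟩
    obtain ⟨t, ht⟩ := e4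
    have e5 : V' x - V' y = t * k' := by
      apply mul_left_cancel₀ hk0
      rw [e3, ht]; ring
    refine ⟨t, by rw [ht]; ring, e5, ?_⟩
    obtain ⟨u, v, huv⟩ := hco
    refine ⟨u * (c1 - c3) + v * (c2 - c4), ?_⟩
    rw [hk] at hc1 hc3
    rw [hk'] at hc2 hc4
    linear_combination u * (hc1 - hc3 - ht) + v * (hc2 - hc4 - e5)
      - (t - (sv x - sv y) * d) * huv
  have hkg : 0 < |k| * g := mul_pos (abs_pos.2 hk0) hgpos
  have hN0 : (0 : ℝ) ≤ N := by exact_mod_cast (abs_nonneg U).trans hUN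
  have hA : ((s.image V).card : ℝ) ≤ (2 * N) / ((|k| * g : ℤ) : ℝ) + 1 := by
    refine card_le_of_cong (s.image V) id (|k| * g) hkg (2 * N) (by positivity)
      (fun _ _ _ _ h => h) ?_ ?_
    · intro v hv v' hv'
      obtain ⟨x, hx, rfl⟩ := mem_image.1 hv
      obtain ⟨y, hy, rfl⟩ := mem_image.1 hv'
      have a1 := abs_lt.1 (hV x hx)
      have a2 := abs_lt.1 (hV y hy)
      have : V x - V y ≤ 2 * N := by omega
      simp only [id]
      exact_mod_cast this
    · intro v hv v' hv'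
      obtain ⟨x, hx, rfl⟩ := mem_image.1 hv
      obtain ⟨y, hy, rfl⟩ := mem_image.1 hv'
      obtain ⟨t, ht, -, c, hc⟩ := key x hx y hy
      simp only [id]
      rw [ht]
      have : g ∣ t := ⟨Q1 * c + (sv x - sv y) * d1, by rw [hQ1, hd1] at hc; linear_combination hc⟩
      rw [mul_comm t k]
      exact mul_dvd_mul ((abs_dvd _ _).2 dvd_rfl) this
  have hB : ∀ x ∈ s, ((s.filter (fun y => V y = V x)).card : ℝ) ≤ (Q : ℝ) / Q1 + 1 := by
    intro x0 _
    refine card_le_of_cong _ sv Q1 hQ1pos Q (by exact_mod_cast hQ.le) ?_ ?_ ?_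
    · intro x hx y hy hxy
      obtain ⟨hx, hx'⟩ := mem_filter.1 hx
      obtain ⟨hy, hy'⟩ := mem_filter.1 hy
      obtain ⟨t, ht, ht', -⟩ := key x hx y hy
      have : t = 0 := by
        have : t * k = 0 := by rw [← ht, hx', hy']; ring
        exact (mul_eq_zero.1 this).resolve_right hk0
      subst this
      exact hinj x hx y hy hxy (by rw [hx', hy']) (by linarith)
    · intro x hx y hy
      have a1 := hs x (mem_filter.1 hx).1
      have a2 := hs y (mem_filter.1 hy).1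
      have : sv x - sv y ≤ Q := by omega
      exact_mod_cast this
    · intro x hx y hy
      obtain ⟨hx, hx'⟩ := mem_filter.1 hx
      obtain ⟨hy, hy'⟩ := mem_filter.1 hy
      obtain ⟨t, ht, -, c, hc⟩ := key x hx y hy
      have : t = 0 := by
        have : t * k = 0 := by rw [← ht, hx', hy']; ring
        exact (mul_eq_zero.1 this).resolve_right hk0
      subst this
      refine hco1.dvd_of_dvd_mul_right ⟨-c, ?_⟩
      apply mul_left_cancel₀ hgpos.ne'
      rw [hQ1, hd1] at hc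
      linear_combination -hc
  have hQr : (Q : ℝ) / Q1 = g := by
    rw [hQ1]; push_cast
    have : (Q1 : ℝ) ≠ 0 := by exact_mod_cast hQ1pos.ne'
    field_simp
  rw [hQr] at hB
  have hg1 : (1 : ℝ) ≤ g := by exact_mod_cast hgpos
  have hC := card_le_mul_of_fiber s V _ _ (by linarith) hA hB
  have hka : (0 : ℝ) < |(k : ℝ)| := abs_pos.2 (by exact_mod_cast hk0)
  have hd1' : (1 : ℝ) ≤ d1 := by exact_mod_cast hd1pos
  have hUr : |(U : ℝ)| = g * d1 * |(k : ℝ)| := by
    rw [hk, hd1]; push_cast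
    rw [abs_mul, abs_of_pos (by positivity)]
  have hUN' : |(U : ℝ)| ≤ N := by exact_mod_cast hUN
  rw [hdr, hUr, hd1]
  push_cast at hC ⊢
  have e1 : (1 : ℝ) ≤ N / (|(k : ℝ)| * g) := by
    rw [le_div_iff₀ (by positivity)]
    have : g * |(k : ℝ)| * 1 ≤ g * |(k : ℝ)| * d1 := by gcongr
    nlinarith
  calc (s.card : ℝ) ≤ _ := hC
    _ ≤ (3 * (N / (|(k : ℝ)| * g))) * (2 * g) := by
        apply mul_le_mul _ (by linarith) (by linarith) (by linarith)
        rw [mul_div_assoc]; linarith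
    _ = _ := by field_simp; ring

end Vale.Agent.P036
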