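import Vale.Agent.P036.Count

namespace Vale.Agent.P036

open Finset

/-- `τ` bounds the number of integer divisors of every nonzero integer of size at most `N`. -/
def DivB (N : ℤ) (τ : ℝ) : Prop :=
  ∀ n : ℤ, n ≠ 0 → |n| ≤ N → ∀ s : Finset ℤ, (∀ b ∈ s, b ∣ n) → (s.card : ℝ) ≤ τ

/-- `H` bounds the two-sided harmonic sum up to `N`. -/
def HarB (N : ℤ) (H : ℝ) : Prop :=
  ∀ s : Finset ℤ, (∀ k ∈ s, k ≠ 0 ∧ |k| ≤ N) → ∑ k ∈ s, 1 / |(k : ℝ)| ≤ H

lemma card_image_pair {α β γ : Type*} [DecidableEq β] [DecidableEq γ] (s : Finset α)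
    (f : α → β) (g : α → γ) (A B : ℝ) (hA : ((s.image f).card : ℝ) ≤ A)
    (hB : ((s.image g).card : ℝ) ≤ B) : ((s.image fun x => (f x, g x)).card : ℝ) ≤ A * B := by
  have h : (s.image fun x => (f x, g x)) ⊆ s.image f ×ˢ s.image g := by
    intro y hy
    obtain ⟨x, hx, rfl⟩ := mem_image.1 hy
    exact mem_product.2 ⟨mem_image_of_mem f hx, mem_image_of_mem g hx⟩
  have h1 := card_le_card h
  rw [card_product] at h1
  have h2 : ((s.image fun x => (f x, g x)).card : ℝ) ≤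
      ((s.image f).card : ℝ) * ((s.image g).card : ℝ) := by exact_mod_cast h1
  exact h2.trans (mul_le_mul hA hB (Nat.cast_nonneg _) ((Nat.cast_nonneg _).trans hA))

lemma card_image_abs {α : Type*} (s : Finset α) (f : α → ℤ) (F : ℤ) (hF : 0 < F)
    (h : ∀ x ∈ s, |f x| < F) : ((s.image f).card : ℝ) ≤ 2 * F :=
  card_le_of_abs_lt _ id F hF (fun _ _ _ _ h => h) fun y hy => by
    obtain ⟨x, hx, rfl⟩ := mem_image.1 hy
    exact h x hx

lemma gcd_sum (U N : ℤ) (τ H : ℝ) (hτ : DivB N τ) (hH : HarB N H) (hH0 : 0 ≤ H) (hU : U ≠ 0)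
    (hUN : |U| ≤ N) (t : Finset ℤ) (ht : ∀ y ∈ t, y ≠ 0 ∧ |y| ≤ N) :
    ∑ y ∈ t, (Int.gcd y U : ℝ) / |(y : ℝ)| ≤ τ * H := by
  refine sum_le_mul_of_fiber t (fun y => (Int.gcd y U : ℤ)) _ τ H hH0 (hτ U hU hUN _ ?_) ?_
  · intro b hb
    obtain ⟨y, _, rfl⟩ := mem_image.1 hb
    exact Int.gcd_dvd_right _ _
  · intro x hx
    obtain ⟨d, hd⟩ : ∃ d : ℤ, d = (Int.gcd x U : ℤ) := ⟨_, rfl⟩
    have hdpos : 0 < d := by
      rw [hd]; exact_mod_cast Int.gcd_pos_of_ne_zero_right _ hU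
    simp only [← hd]
    have hdiv : ∀ y ∈ t.filter (fun y => (Int.gcd y U : ℤ) = d), y = d * (y / d) := by
      intro y hy
      have := (mem_filter.1 hy).2
      rw [Int.mul_ediv_cancel' (this ▸ Int.gcd_dvd_left _ _)]
    have h1 := hH ((t.filter (fun y => (Int.gcd y U : ℤ) = d)).image (fun y => y / d)) (by
      intro k hk
      obtain ⟨y, hy, rfl⟩ := mem_image.1 hk
      have e := hdiv y hy
      obtain ⟨h0, hN⟩ := ht y (mem_filter.1 hy).1
      refine ⟨fun h => h0 (by rw [e, h, mul_zero]), ?_⟩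
      rw [e, abs_mul, abs_of_pos hdpos] at hN
      have := abs_nonneg (y / d)
      nlinarith)
    rw [sum_image (fun x hx y hy hxy => by
      rw [hdiv x hx, hdiv y hy]; exact congrArg (d * ·) hxy)] at h1
    refine le_trans (le_of_eq (sum_congr rfl fun y hy => ?_)) h1
    have e := hdiv y hy
    have e2 : (Int.gcd y U : ℝ) = d := by
      have := (mem_filter.1 hy).2
      exact_mod_cast this
    have e3 : (y : ℝ) = d * ((y / d : ℤ) : ℝ) := by exact_mod_cast e
    have hd' : (0 : ℝ) < d := by exact_mod_cast hdpos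
    rw [e2]
    conv_lhs => rw [e3, abs_mul, abs_of_pos hd']
    rw [div_mul_eq_div_div, div_self hd'.ne']

/-- Two points of one type and one of another type. -/
lemma count21 {α : Type*} (s : Finset α) (a b U' sv V V' : α → ℤ) (W' F P Q : ℤ) (τ H : ℝ)
    (hF : 0 < F) (hP : 0 < P) (hFQ : F ≤ Q) (hτ : DivB (Q * P) τ) (hH : HarB (Q * P) H)
    (hτ1 : 1 ≤ τ) (hH1 : 1 ≤ H)
    (hinj : ∀ x ∈ s, ∀ y ∈ s, a x = a y → b x = b y → U' x = U' y → sv x = sv y → V x = V y →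
      V' x = V' y → x = y)
    (ha : ∀ x ∈ s, |a x| < F) (hb : ∀ x ∈ s, |b x| < P) (hU : ∀ x ∈ s, a x + Q * b x ≠ 0)
    (hU' : ∀ x ∈ s, |U' x| ≤ Q * P)
    (hs : ∀ x ∈ s, 0 ≤ sv x ∧ sv x < Q) (hV : ∀ x ∈ s, |V x| < Q * P)
    (hV' : ∀ x ∈ s, |V' x| < Q * P)
    (h1 : ∀ x ∈ s, Q ∣ V x - sv x * (a x + Q * b x))
    (h2 : ∀ x ∈ s, Q ∣ V' x - W' - sv x * U' x)
    (h3 : ∀ x ∈ s, 2 * |(a x + Q * b x) * V' x - U' x * V x| < Q) :
    (s.card : ℝ) ≤ 48 * F * P * (Q * P) * τ * H := by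
  classical
  have hQ : 0 < Q := by omega
  have hN : (0 : ℝ) < Q * P := by exact_mod_cast mul_pos hQ hP
  have hτH : 1 ≤ τ * H := by nlinarith
  have := card_le_mul_of_fiber s (fun x => (a x, b x)) (2 * F * (2 * P))
    (12 * (Q * P) * (τ * H)) (by positivity)
    (card_image_pair s a b _ _ (card_image_abs s a F hF ha) (card_image_abs s b P hP hb)) ?_
  · linarith
  intro x0 hx0
  obtain ⟨U, hUd⟩ : ∃ U, U = a x0 + Q * b x0 := ⟨_, rfl⟩
  obtain ⟨s0, hs0⟩ : ∃ s0, s0 = s.filter (fun y => (a y, b y) = (a x0, b x0)) := ⟨_, rfl⟩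
  rw [← hs0]
  have hm : ∀ x ∈ s0, x ∈ s ∧ a x = a x0 ∧ b x = b x0 := by
    intro x hx
    rw [hs0, mem_filter, Prod.mk.injEq] at hx
    exact hx
  have hUe : ∀ x ∈ s0, a x + Q * b x = U := by
    intro x hx
    rw [hUd, (hm x hx).2.1, (hm x hx).2.2]
  have hU0 : U ≠ 0 := hUd ▸ hU x0 hx0
  have hUN : |U| ≤ Q * P := by
    have a1 := abs_lt.1 (ha x0 hx0)
    have a2 := abs_lt.1 (hb x0 hx0)
    have a3 : Q * (b x0) ≤ Q * (P - 1) := mul_le_mul_of_nonneg_left (by omega) hQ.le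
    have a4 : Q * (-(P - 1)) ≤ Q * (b x0) := mul_le_mul_of_nonneg_left (by omega) hQ.le
    rw [hUd, abs_le]; constructor <;> nlinarith
  rw [← card_filter_add_card_filter_not (s := s0) (fun x => U' x = 0)]
  push_cast
  have hA : ((s0.filter (fun x => U' x = 0)).card : ℝ) ≤ 6 * (Q * P) := by
    have := lemmaA (s0.filter (fun x => U' x = 0)) sv V V' U 0 0 W' Q (Q * P) hQ hU0 hUN
      (fun x hx y hy e1 e2 e3 => by
        obtain ⟨hx, hx'⟩ := mem_filter.1 hx
        obtain ⟨hy, hy'⟩ := mem_filter.1 hy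
        exact hinj x (hm x hx).1 y (hm y hy).1 (by rw [(hm x hx).2.1, (hm y hy).2.1])
          (by rw [(hm x hx).2.2, (hm y hy).2.2]) (by rw [hx', hy']) e1 e2 e3)
      (fun x hx => hs x (hm x (mem_filter.1 hx).1).1)
      (fun x hx => hV x (hm x (mem_filter.1 hx).1).1)
      (fun x hx => by
        obtain ⟨hx, hx'⟩ := mem_filter.1 hx
        have := h1 x (hm x hx).1
        rwa [hUe x hx, ← sub_zero (V x)] at this)
      (fun x hx => by
        obtain ⟨hx, hx'⟩ := mem_filter.1 hx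
        have := h2 x (hm x hx).1
        rwa [hx'] at this)
      (fun x hx => by
        obtain ⟨hx, hx'⟩ := mem_filter.1 hx
        have := h3 x (hm x hx).1
        rwa [hUe x hx, hx'] at this)
    have e : (Int.gcd U 0 : ℝ) / |(U : ℝ)| = 1 := by
      rw [Int.gcd_zero_right, Nat.cast_natAbs, Int.cast_abs, div_self]
      exact abs_ne_zero.2 (by exact_mod_cast hU0)
    rw [e] at this
    push_cast at this
    linarith
  have hB : ((s0.filter (fun x => ¬ U' x = 0)).card : ℝ) ≤ 6 * (Q * P) * (τ * H) := by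
    refine (card_le_sum_of_fiber _ U' (fun y => 6 * (Q * P) * ((Int.gcd y U : ℝ) / |(y : ℝ)|))
      ?_).trans ?_
    · intro x1 hx1
      obtain ⟨hx1, hx1'⟩ := mem_filter.1 hx1
      have hm' : ∀ x ∈ (s0.filter (fun x => ¬ U' x = 0)).filter (fun y => U' y = U' x1),
          x ∈ s0 ∧ U' x = U' x1 := fun x hx =>
        ⟨(mem_filter.1 (mem_filter.1 hx).1).1, (mem_filter.1 hx).2⟩
      have := lemmaA ((s0.filter (fun x => ¬ U' x = 0)).filter (fun y => U' y = U' x1))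
        sv V' V (U' x1) U W' 0 Q (Q * P) hQ hx1' (hU' x1 (hm x1 hx1).1)
        (fun x hx y hy e1 e2 e3 => by
          obtain ⟨hx, hx'⟩ := hm' x hx
          obtain ⟨hy, hy'⟩ := hm' y hy
          exact hinj x (hm x hx).1 y (hm y hy).1 (by rw [(hm x hx).2.1, (hm y hy).2.1])
            (by rw [(hm x hx).2.2, (hm y hy).2.2]) (by rw [hx', hy']) e1 e3 e2)
        (fun x hx => hs x (hm x (hm' x hx).1).1)
        (fun x hx => hV' x (hm x (hm' x hx).1).1)
        (fun x hx => by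
          obtain ⟨hx, hx'⟩ := hm' x hx
          have := h2 x (hm x hx).1
          rwa [hx'] at this)
        (fun x hx => by
          obtain ⟨hx, hx'⟩ := hm' x hx
          have := h1 x (hm x hx).1
          rwa [hUe x hx, ← sub_zero (V x)] at this)
        (fun x hx => by
          obtain ⟨hx, hx'⟩ := hm' x hx
          have := h3 x (hm x hx).1
          rwa [hUe x hx, hx', abs_sub_comm] at this)
      push_cast at this
      exact this
    · rw [← mul_sum]
      refine mul_le_mul_of_nonneg_left (gcd_sum U (Q * P) τ H hτ hH (by linarith) hU0 hUN _ ?_)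
        (by positivity)
      intro y hy
      obtain ⟨x, hx, rfl⟩ := mem_image.1 hy
      obtain ⟨hx, hx'⟩ := mem_filter.1 hx
      exact ⟨hx', hU' x (hm x hx).1⟩
  nlinarith

end Vale.Agent.P036
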