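import Vale.Agent.P036.Count2

namespace Vale.Agent.P036

open Finset

lemma abs_digit_le (a b F P Q : ℤ) (hQ : 0 < Q) (hFQ : F ≤ Q) (ha : |a| < F) (hb : |b| < P) :
    |a + Q * b| ≤ Q * P := by
  have a1 := abs_lt.1 ha
  have a2 := abs_lt.1 hb
  have a3 : Q * b ≤ Q * (P - 1) := mul_le_mul_of_nonneg_left (by omega) hQ.le
  have a4 : Q * (-(P - 1)) ≤ Q * b := mul_le_mul_of_nonneg_left (by omega) hQ.le
  rw [abs_le]; constructor <;> nlinarith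

lemma abs_digit_ge (a b F Q : ℤ) (hFQ : 2 * F ≤ Q) (ha : |a| < F) (hb : b ≠ 0) :
    Q * |b| < 2 * |a + Q * b| := by
  have h0 := abs_nonneg a
  have hQ : 0 < Q := by omega
  have h1 : |Q * b| ≤ |a + Q * b| + |a| := by
    have := abs_sub (a + Q * b) a
    rwa [add_sub_cancel_left] at this
  rw [abs_mul, abs_of_pos hQ] at h1
  have h2 : 1 ≤ |b| := Int.one_le_abs hb
  nlinarith

section
variable {α : Type*} (s : Finset α) (a1 b1 a2 b2 : α → ℤ) (F P Q : ℤ) (τ H : ℝ)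

lemma sumS_small (hF : 0 < F) (hP : 0 < P) (hFQ : 2 * F ≤ Q) (hτ : DivB (Q * P) τ)
    (hH : HarB (Q * P) H) (hτ0 : 0 ≤ τ)
    (hinj : ∀ x ∈ s, ∀ y ∈ s, a1 x = a1 y → b1 x = b1 y → a2 x = a2 y → b2 x = b2 y → x = y)
    (ha1 : ∀ x ∈ s, |a1 x| < F) (hb1 : ∀ x ∈ s, |b1 x| < P)
    (ha2 : ∀ x ∈ s, |a2 x| < F) (hb2 : ∀ x ∈ s, |b2 x| < P)
    (hb0 : ∀ x ∈ s, b1 x ≠ 0)
    (hd : ∀ x ∈ s, (Int.gcd (a1 x + Q * b1 x) (a2 x + Q * b2 x) : ℤ) ≤ F) :
    ∑ x ∈ s, (Int.gcd (a1 x + Q * b1 x) (a2 x + Q * b2 x) : ℝ) / |((a1 x + Q * b1 x : ℤ) : ℝ)| ≤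
      24 * F ^ 2 * P * τ / Q * H := by
  classical
  have hQ : 0 < Q := by omega
  have hQ' : (0 : ℝ) < Q := by exact_mod_cast hQ
  have hF' : (0 : ℝ) < F := by exact_mod_cast hF
  have hP' : (0 : ℝ) < P := by exact_mod_cast hP
  refine (sum_le_of_fiber s b1 _ (fun b => 24 * F ^ 2 * P * τ / Q * (1 / |(b : ℝ)|)) ?_).trans ?_
  swap
  · rw [← mul_sum]
    refine mul_le_mul_of_nonneg_left (hH _ ?_) (by positivity)
    intro y hy
    obtain ⟨x, hx, rfl⟩ := mem_image.1 hy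
    refine ⟨hb0 x hx, ?_⟩
    have := hb1 x hx
    nlinarith
  intro x0 hx0
  obtain ⟨s0, hs0⟩ : ∃ s0, s0 = s.filter (fun y => b1 y = b1 x0) := ⟨_, rfl⟩
  rw [← hs0]
  have hm : ∀ x ∈ s0, x ∈ s ∧ b1 x = b1 x0 := by
    intro x hx
    rwa [hs0, mem_filter] at hx
  have hb' : (0 : ℝ) < |(b1 x0 : ℝ)| := abs_pos.2 (by exact_mod_cast hb0 x0 hx0)
  have hsum : ∑ x ∈ s0, (Int.gcd (a1 x + Q * b1 x) (a2 x + Q * b2 x) : ℝ) ≤
      (2 * F * (2 * P)) * (τ * (3 * F)) := by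
    refine sum_le_mul_of_fiber s0 (fun x => (a1 x, b2 x)) _ _ _ (by positivity)
      (card_image_pair s0 a1 b2 _ _ (card_image_abs s0 a1 F hF fun x hx => ha1 x (hm x hx).1)
        (card_image_abs s0 b2 P hP fun x hx => hb2 x (hm x hx).1)) ?_
    intro x1 hx1
    obtain ⟨s1, hs1⟩ : ∃ s1, s1 = s0.filter (fun y => (a1 y, b2 y) = (a1 x1, b2 x1)) := ⟨_, rfl⟩
    rw [← hs1]
    have hm1 : ∀ x ∈ s1, x ∈ s0 ∧ a1 x = a1 x1 ∧ b2 x = b2 x1 := by
      intro x hx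
      rwa [hs1, mem_filter, Prod.mk.injEq] at hx
    have hU0 : a1 x1 + Q * b1 x1 ≠ 0 := by
      have := abs_digit_ge _ _ F Q hFQ (ha1 x1 (hm x1 hx1).1) (hb0 x1 (hm x1 hx1).1)
      intro h
      rw [h] at this
      have := mul_nonneg hQ.le (abs_nonneg (b1 x1))
      simp at *
      linarith
    refine sum_le_mul_of_fiber s1 (fun x => (Int.gcd (a1 x + Q * b1 x) (a2 x + Q * b2 x) : ℤ))
      _ _ _ (by positivity) (hτ _ hU0 (abs_digit_le _ _ F P Q hQ (by omega)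
        (ha1 x1 (hm x1 hx1).1) (hb1 x1 (hm x1 hx1).1)) _ ?_) ?_
    · intro y hy
      obtain ⟨x, hx, rfl⟩ := mem_image.1 hy
      rw [← (hm1 x hx).2.1, (hm x1 hx1).2, ← (hm x (hm1 x hx).1).2]
      exact Int.gcd_dvd_left _ _
    intro x2 hx2
    obtain ⟨d, hdd⟩ : ∃ d : ℤ, d = (Int.gcd (a1 x2 + Q * b1 x2) (a2 x2 + Q * b2 x2) : ℤ) :=
      ⟨_, rfl⟩
    simp only [← hdd]
    obtain ⟨s2, hs2⟩ : ∃ s2, s2 = s1.filter
      (fun x => (Int.gcd (a1 x + Q * b1 x) (a2 x + Q * b2 x) : ℤ) = d) := ⟨_, rfl⟩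
    rw [← hs2]
    have hm2 : ∀ x ∈ s2, x ∈ s1 ∧ (Int.gcd (a1 x + Q * b1 x) (a2 x + Q * b2 x) : ℤ) = d := by
      intro x hx
      rwa [hs2, mem_filter] at hx
    have hdpos : 0 < d := by
      rw [hdd, (hm1 x2 hx2).2.1, (hm x2 (hm1 x2 hx2).1).2, ← (hm x1 hx1).2]
      exact_mod_cast Int.gcd_pos_of_ne_zero_left _ hU0
    have hdF : (d : ℝ) ≤ F := by
      have := hd x2 (hm x2 (hm1 x2 hx2).1).1
      rw [← hdd] at this
      exact_mod_cast this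
    have hd' : (0 : ℝ) < d := by exact_mod_cast hdpos
    have hc := card_le_of_cong s2 a2 d hdpos (2 * F) (by positivity)
      (fun x hx y hy e => by
        have x1' := hm1 x (hm2 x hx).1
        have y1' := hm1 y (hm2 y hy).1
        exact hinj x (hm x x1'.1).1 y (hm y y1'.1).1 (by rw [x1'.2.1, y1'.2.1])
          (by rw [(hm x x1'.1).2, (hm y y1'.1).2]) e (by rw [x1'.2.2, y1'.2.2]))
      (fun x hx y hy => by
        have e1 := abs_lt.1 (ha2 x (hm x (hm1 x (hm2 x hx).1).1).1)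
        have e2 := abs_lt.1 (ha2 y (hm y (hm1 y (hm2 y hy).1).1).1)
        have : a2 x - a2 y ≤ 2 * F := by omega
        exact_mod_cast this)
      (fun x hx y hy => by
        have e1 : d ∣ a2 x + Q * b2 x := (hm2 x hx).2 ▸ Int.gcd_dvd_right _ _
        have e2 : d ∣ a2 y + Q * b2 y := (hm2 y hy).2 ▸ Int.gcd_dvd_right _ _
        have := dvd_sub e1 e2
        rw [(hm1 x (hm2 x hx).1).2.2, (hm1 y (hm2 y hy).1).2.2] at this
        simpa using this)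
    rw [sum_congr rfl (g := fun _ => (d : ℝ)) (fun x hx => by exact_mod_cast (hm2 x hx).2),
      sum_const, nsmul_eq_mul]
    calc (s2.card : ℝ) * d ≤ (2 * F / d + 1) * d := by gcongr
      _ = 2 * F + d := by field_simp
      _ ≤ 3 * F := by linarith
  calc _ ≤ ∑ x ∈ s0, (Int.gcd (a1 x + Q * b1 x) (a2 x + Q * b2 x) : ℝ) *
        (2 / (Q * |(b1 x0 : ℝ)|)) := by
        refine sum_le_sum fun x hx => ?_
        have e := abs_digit_ge _ _ F Q hFQ (ha1 x (hm x hx).1) (hb0 x (hm x hx).1)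
        have e' : (Q : ℝ) * |(b1 x0 : ℝ)| < 2 * |((a1 x + Q * b1 x : ℤ) : ℝ)| := by
          rw [← (hm x hx).2]; exact_mod_cast e
        have e0 : (0 : ℝ) < Q * |(b1 x0 : ℝ)| := by positivity
        rw [div_eq_mul_one_div]
        refine mul_le_mul_of_nonneg_left ?_ (Nat.cast_nonneg _)
        rw [div_le_div_iff₀ (by linarith) e0]
        linarith
    _ ≤ (2 * F * (2 * P)) * (τ * (3 * F)) * (2 / (Q * |(b1 x0 : ℝ)|)) := by
        rw [← sum_mul]; gcongr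
    _ = _ := by field_simp; ring

lemma sumS_large (hF : 0 < F) (hP : 0 < P) (hFQ : 2 * F ≤ Q) (hN : Q * P ≤ F * F)
    (hτ : DivB (Q * P) τ) (hH : HarB (Q * P) H) (hτ0 : 0 ≤ τ)
    (hinj : ∀ x ∈ s, ∀ y ∈ s, a1 x = a1 y → b1 x = b1 y → a2 x = a2 y → b2 x = b2 y → x = y)
    (ha1 : ∀ x ∈ s, |a1 x| < F) (hb1 : ∀ x ∈ s, |b1 x| < P)
    (ha2 : ∀ x ∈ s, |a2 x| < F) (hb2 : ∀ x ∈ s, |b2 x| < P)
    (hΔ : ∀ x ∈ s, a1 x * b2 x ≠ a2 x * b1 x)
    (hle : ∀ x ∈ s, |a2 x + Q * b2 x| ≤ |a1 x + Q * b1 x|)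
    (hU0 : ∀ x ∈ s, a1 x + Q * b1 x ≠ 0)
    (hd : ∀ x ∈ s, F < (Int.gcd (a1 x + Q * b1 x) (a2 x + Q * b2 x) : ℤ)) :
    ∑ x ∈ s, (Int.gcd (a1 x + Q * b1 x) (a2 x + Q * b2 x) : ℝ) / |((a1 x + Q * b1 x : ℤ) : ℝ)| ≤
      36 * F ^ 2 * P * τ / Q * H := by
  classical
  have hQ : 0 < Q := by omega
  have hQ' : (0 : ℝ) < Q := by exact_mod_cast hQ
  have hF' : (0 : ℝ) < F := by exact_mod_cast hF
  have hP' : (0 : ℝ) < P := by exact_mod_cast hP
  have hex : ∀ x : α, ∃ k k' : ℤ, x ∈ s →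
      a1 x + Q * b1 x = (Int.gcd (a1 x + Q * b1 x) (a2 x + Q * b2 x) : ℤ) * k ∧
      a2 x + Q * b2 x = (Int.gcd (a1 x + Q * b1 x) (a2 x + Q * b2 x) : ℤ) * k' ∧
      IsCoprime k k' := by
    intro x
    by_cases hx : x ∈ s
    · obtain ⟨k, k', h⟩ := exists_gcd_split _ (a2 x + Q * b2 x) (hU0 x hx)
      exact ⟨k, k', fun _ => h⟩
    · exact ⟨0, 0, fun h => absurd h hx⟩
  choose k k' hk using hex
  have facts : ∀ x ∈ s, k x ≠ 0 ∧ |k x| ≤ F ∧ |k' x| ≤ |k x| ∧ k x * b2 x - k' x * b1 x ≠ 0 ∧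
      Q * (k x * b2 x - k' x * b1 x) = k' x * a1 x - k x * a2 x ∧
      (Int.gcd (a1 x + Q * b1 x) (a2 x + Q * b2 x) : ℝ) / |((a1 x + Q * b1 x : ℤ) : ℝ)| =
        1 / |(k x : ℝ)| := by
    intro x hx
    obtain ⟨e1, e2, -⟩ := hk x hx
    have hdx := hd x hx
    have hl := hle x hx
    have hb := abs_digit_le _ _ F P Q hQ (by omega) (ha1 x hx) (hb1 x hx)
    have h0 := hU0 x hx
    have hD := hΔ x hx
    obtain ⟨d, hdd⟩ : ∃ d : ℤ, d = (Int.gcd (a1 x + Q * b1 x) (a2 x + Q * b2 x) : ℤ) := ⟨_, rfl⟩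
    have hdr : (Int.gcd (a1 x + Q * b1 x) (a2 x + Q * b2 x) : ℝ) = d := by rw [hdd]; simp
    rw [← hdd] at e1 e2 hdx
    have hdpos : 0 < d := by omega
    have hk0 : k x ≠ 0 := by rintro h; rw [h, mul_zero] at e1; exact h0 e1
    rw [hdr]
    rw [e1, abs_mul, abs_of_pos hdpos] at hb
    rw [e1, e2, abs_mul, abs_mul, abs_of_pos hdpos] at hl
    have hka := abs_nonneg (k x)
    refine ⟨hk0, by nlinarith, le_of_mul_le_mul_left hl hdpos, fun h => hD ?_, ?_, ?_⟩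
    · linear_combination b2 x * e1 - b1 x * e2 + d * h
    · linear_combination k x * e2 - k' x * e1
    · rw [e1]; push_cast
      have hd' : (0 : ℝ) < d := by exact_mod_cast hdpos
      rw [abs_mul, abs_of_pos hd', div_mul_eq_div_div, div_self hd'.ne']
  refine (sum_le_of_fiber s k _ (fun b => 36 * F ^ 2 * P * τ / Q * (1 / |(b : ℝ)|)) ?_).trans ?_
  swap
  · rw [← mul_sum]
    refine mul_le_mul_of_nonneg_left (hH _ ?_) (by positivity)
    intro y hy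
    obtain ⟨x, hx, rfl⟩ := mem_image.1 hy
    refine ⟨(facts x hx).1, ?_⟩
    have := (facts x hx).2.1
    nlinarith
  intro x0 hx0
  obtain ⟨s0, hs0⟩ : ∃ s0, s0 = s.filter (fun y => k y = k x0) := ⟨_, rfl⟩
  rw [← hs0]
  have hm : ∀ x ∈ s0, x ∈ s ∧ k x = k x0 := by
    intro x hx
    rwa [hs0, mem_filter] at hx
  have hk0 := (facts x0 hx0).1
  have hka : 0 < |k x0| := abs_pos.2 hk0
  have hka' : (0 : ℝ) < |(k x0 : ℝ)| := by exact_mod_cast hka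
  have hkF : |(k x0 : ℝ)| ≤ F := by exact_mod_cast (facts x0 hx0).2.1
  rw [sum_congr rfl (g := fun _ => 1 / |(k x0 : ℝ)|) (fun x hx => by
    rw [(facts x (hm x hx).1).2.2.2.2.2, (hm x hx).2]), sum_const, nsmul_eq_mul]
  refine mul_le_mul_of_nonneg_right ?_ (by positivity)
  have hj : ∀ x ∈ s0, Q * |k x * b2 x - k' x * b1 x| < 2 * |k x0| * F := by
    intro x hx
    obtain ⟨-, -, f3, -, f5, -⟩ := facts x (hm x hx).1
    have e : |Q * (k x * b2 x - k' x * b1 x)| ≤ |k' x * a1 x| + |k x * a2 x| :=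
      f5 ▸ abs_sub _ _
    rw [abs_mul, abs_mul, abs_mul, abs_of_pos hQ] at e
    have e1 := ha1 x (hm x hx).1
    have e2 := ha2 x (hm x hx).1
    rw [(hm x hx).2] at f3 e ⊢
    have e3 : |k' x| * |a1 x| ≤ |k x0| * F := mul_le_mul f3 e1.le (abs_nonneg _) hka.le
    have e4 : |k x0| * |a2 x| < |k x0| * F := mul_lt_mul_of_pos_left e2 hka
    linarith
  obtain ⟨z, hz⟩ : ∃ z : ℝ, z = 2 * |(k x0 : ℝ)| * F / Q := ⟨_, rfl⟩
  have hjz : ∀ x ∈ s0, |((k x * b2 x - k' x * b1 x : ℤ) : ℝ)| ≤ z := by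
    intro x hx
    rw [hz, le_div_iff₀ hQ']
    have : ((Q * |k x * b2 x - k' x * b1 x| : ℤ) : ℝ) < ((2 * |k x0| * F : ℤ) : ℝ) := by
      exact_mod_cast hj x hx
    push_cast at this ⊢
    linarith
  have hz1 : 1 ≤ z := by
    have hx00 : x0 ∈ s0 := by rw [hs0]; exact mem_filter.2 ⟨hx0, rfl⟩
    refine le_trans ?_ (hjz x0 hx00)
    exact_mod_cast Int.one_le_abs (facts x0 hx0).2.2.2.1
  have hJ : ((s0.image fun x => k x * b2 x - k' x * b1 x).card : ℝ) ≤ 3 * z := by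
    have := card_le_of_cong (s0.image fun x => k x * b2 x - k' x * b1 x) id 1 one_pos (2 * z)
      (by linarith) (fun _ _ _ _ h => h) (fun v hv v' hv' => by
        obtain ⟨x, hx, rfl⟩ := mem_image.1 hv
        obtain ⟨y, hy, rfl⟩ := mem_image.1 hv'
        have e1 := abs_le.1 (hjz x hx)
        have e2 := abs_le.1 (hjz y hy)
        simp only [id]
        rw [Int.cast_sub]
        linarith) (fun _ _ _ _ => one_dvd _)
    simp only [Int.cast_one, div_one] at this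
    linarith
  have hmain := card_le_mul_of_fiber s0 (fun x => (b2 x, k x * b2 x - k' x * b1 x))
    (2 * P * (3 * z)) (τ * (3 * F / |(k x0 : ℝ)|)) (by positivity)
    (card_image_pair s0 b2 _ _ _ (card_image_abs s0 b2 P hP fun x hx => hb2 x (hm x hx).1) hJ) ?_
  · refine hmain.trans (le_of_eq ?_)
    rw [hz]; field_simp; ring
  intro x1 hx1
  obtain ⟨s1, hs1⟩ : ∃ s1, s1 = s0.filter (fun y => (b2 y, k y * b2 y - k' y * b1 y) =
    (b2 x1, k x1 * b2 x1 - k' x1 * b1 x1)) := ⟨_, rfl⟩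
  rw [← hs1]
  have hm1 : ∀ x ∈ s1, x ∈ s0 ∧ b2 x = b2 x1 ∧ k' x * b1 x = k' x1 * b1 x1 := by
    intro x hx
    rw [hs1, mem_filter, Prod.mk.injEq] at hx
    refine ⟨hx.1, hx.2.1, ?_⟩
    have := hx.2.2
    rw [hx.2.1, (hm x hx.1).2, (hm x1 hx1).2] at this
    linarith
  have hn0 : k' x1 * b1 x1 ≠ 0 := by
    intro h
    have e := hj x1 hx1
    have e2 := (facts x1 (hm x1 hx1).1).2.2.2.1
    rw [h, sub_zero, (hm x1 hx1).2] at e e2
    rw [abs_mul] at e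
    have e3 : 1 ≤ |b2 x1| := Int.one_le_abs (right_ne_zero_of_mul e2)
    have e4 : Q * |k x0| * 1 ≤ Q * |k x0| * |b2 x1| :=
      mul_le_mul_of_nonneg_left e3 (by positivity)
    nlinarith
  have hnN : |k' x1 * b1 x1| ≤ Q * P := by
    obtain ⟨-, f2, f3, -⟩ := facts x1 (hm x1 hx1).1
    rw [abs_mul]
    exact mul_le_mul (by omega) (hb1 x1 (hm x1 hx1).1).le (abs_nonneg _) hQ.le
  refine card_le_mul_of_fiber s1 b1 _ _ (by positivity) (hτ _ hn0 hnN _ ?_) ?_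
  · intro y hy
    obtain ⟨x, hx, rfl⟩ := mem_image.1 hy
    rw [← (hm1 x hx).2.2]
    exact Dvd.intro_left _ rfl
  intro x2 hx2
  obtain ⟨s2, hs2⟩ : ∃ s2, s2 = s1.filter (fun y => b1 y = b1 x2) := ⟨_, rfl⟩
  rw [← hs2]
  have hb0 : b1 x2 ≠ 0 := by
    have := hn0
    rw [← (hm1 x2 hx2).2.2] at this
    exact right_ne_zero_of_mul this
  have hm2 : ∀ x ∈ s2, x ∈ s ∧ k x = k x0 ∧ b1 x = b1 x2 ∧ b2 x = b2 x1 ∧ k' x = k' x2 := by
    intro x hx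
    rw [hs2, mem_filter] at hx
    have e := hm1 x hx.1
    refine ⟨(hm x e.1).1, (hm x e.1).2, hx.2, e.2.1, mul_right_cancel₀ hb0 ?_⟩
    rw [(hm1 x2 hx2).2.2, ← e.2.2, hx.2]
  have hrel : ∀ x ∈ s2, ∀ y ∈ s2, k' x2 * (a1 x - a1 y) = k x0 * (a2 x - a2 y) := by
    intro x hx y hy
    obtain ⟨p0, p1, p2, p3, p4⟩ := hm2 x hx
    obtain ⟨q0, q1, q2, q3, q4⟩ := hm2 y hy
    have e1 := (facts x p0).2.2.2.2.1
    have e2 := (facts y q0).2.2.2.2.1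
    rw [p1, p2, p3, p4] at e1
    rw [q1, q2, q3, q4] at e2
    linear_combination e2 - e1
  have hco : IsCoprime (k x0) (k' x2) := by
    have e := hm x2 (hm1 x2 hx2).1
    rw [← e.2]
    exact (hk x2 e.1).2.2
  have hc := card_le_of_cong s2 a1 |k x0| hka (2 * F) (by positivity)
    (fun x hx y hy e => by
      obtain ⟨p0, p1, p2, p3, p4⟩ := hm2 x hx
      obtain ⟨q0, q1, q2, q3, q4⟩ := hm2 y hy
      have e1 := hrel x hx y hy
      rw [e, sub_self, mul_zero] at e1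
      have e2 := (mul_eq_zero.1 e1.symm).resolve_left hk0
      exact hinj x p0 y q0 e (by rw [p2, q2]) (by linarith) (by rw [p3, q3]))
    (fun x hx y hy => by
      have e1 := abs_lt.1 (ha1 x (hm2 x hx).1)
      have e2 := abs_lt.1 (ha1 y (hm2 y hy).1)
      have : a1 x - a1 y ≤ 2 * F := by omega
      exact_mod_cast this)
    (fun x hx y hy => (abs_dvd _ _).2 (hco.dvd_of_dvd_mul_left ⟨_, hrel x hx y hy⟩))
  refine hc.trans ?_
  push_cast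
  have : 1 ≤ (F : ℝ) / |(k x0 : ℝ)| := by rw [le_div_iff₀ hka']; linarith
  rw [mul_div_assoc, mul_div_assoc]
  linarith

end

end Vale.Agent.P036
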