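import Vale.Agent.P036.Count3

namespace Vale.Agent.P036

open Finset

section
variable {α : Type*} (s : Finset α) (a1 b1 a2 b2 sv V V' : α → ℤ) (F P Q : ℤ) (τ H : ℝ)

lemma sumS (hF : 0 < F) (hP : 0 < P) (hFQ : 2 * F ≤ Q) (hN : Q * P ≤ F * F)
    (hτ : DivB (Q * P) τ) (hH : HarB (Q * P) H) (hτ0 : 0 ≤ τ)
    (hinj : ∀ x ∈ s, ∀ y ∈ s, a1 x = a1 y → b1 x = b1 y → a2 x = a2 y → b2 x = b2 y → x = y)
    (ha1 : ∀ x ∈ s, |a1 x| < F) (hb1 : ∀ x ∈ s, |b1 x| < P)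
    (ha2 : ∀ x ∈ s, |a2 x| < F) (hb2 : ∀ x ∈ s, |b2 x| < P)
    (hΔ : ∀ x ∈ s, a1 x * b2 x ≠ a2 x * b1 x)
    (hle : ∀ x ∈ s, |a2 x + Q * b2 x| ≤ |a1 x + Q * b1 x|) :
    ∑ x ∈ s, (Int.gcd (a1 x + Q * b1 x) (a2 x + Q * b2 x) : ℝ) / |((a1 x + Q * b1 x : ℤ) : ℝ)| ≤
      60 * F ^ 2 * P * τ / Q * H := by
  classical
  have hQ : 0 < Q := by omega
  have hb0 : ∀ x ∈ s, b1 x ≠ 0 := by
    intro x hx h
    have e := hΔ x hx
    have e1 := hle x hx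
    rw [h, mul_zero] at e
    rw [h, mul_zero, add_zero] at e1
    have e2 := abs_digit_ge _ _ F Q hFQ (ha2 x hx) (right_ne_zero_of_mul e)
    have e3 : 1 ≤ |b2 x| := Int.one_le_abs (right_ne_zero_of_mul e)
    have e4 := ha1 x hx
    nlinarith
  have hU0 : ∀ x ∈ s, a1 x + Q * b1 x ≠ 0 := by
    intro x hx h
    have := abs_digit_ge _ _ F Q hFQ (ha1 x hx) (hb0 x hx)
    rw [h] at this
    have := mul_nonneg hQ.le (abs_nonneg (b1 x))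
    simp at *
    linarith
  rw [← sum_filter_add_sum_filter_not s
    (fun x => (Int.gcd (a1 x + Q * b1 x) (a2 x + Q * b2 x) : ℤ) ≤ F)]
  have e1 := sumS_small (s.filter
    (fun x => (Int.gcd (a1 x + Q * b1 x) (a2 x + Q * b2 x) : ℤ) ≤ F)) a1 b1 a2 b2 F P Q τ H
    hF hP hFQ hτ hH hτ0 (fun x hx y hy => hinj x (mem_filter.1 hx).1 y (mem_filter.1 hy).1)
    (fun x hx => ha1 x (mem_filter.1 hx).1) (fun x hx => hb1 x (mem_filter.1 hx).1)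
    (fun x hx => ha2 x (mem_filter.1 hx).1) (fun x hx => hb2 x (mem_filter.1 hx).1)
    (fun x hx => hb0 x (mem_filter.1 hx).1) (fun x hx => (mem_filter.1 hx).2)
  have e2 := sumS_large (s.filter
    (fun x => ¬ (Int.gcd (a1 x + Q * b1 x) (a2 x + Q * b2 x) : ℤ) ≤ F)) a1 b1 a2 b2 F P Q τ H
    hF hP hFQ hN hτ hH hτ0 (fun x hx y hy => hinj x (mem_filter.1 hx).1 y (mem_filter.1 hy).1)
    (fun x hx => ha1 x (mem_filter.1 hx).1) (fun x hx => hb1 x (mem_filter.1 hx).1)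
    (fun x hx => ha2 x (mem_filter.1 hx).1) (fun x hx => hb2 x (mem_filter.1 hx).1)
    (fun x hx => hΔ x (mem_filter.1 hx).1) (fun x hx => hle x (mem_filter.1 hx).1)
    (fun x hx => hU0 x (mem_filter.1 hx).1) (fun x hx => not_le.1 (mem_filter.1 hx).2)
  refine (add_le_add e1 e2).trans (le_of_eq ?_)
  ring

lemma count3_half (hF : 0 < F) (hP : 0 < P) (hFQ : 2 * F ≤ Q) (hN : Q * P ≤ F * F)
    (hτ : DivB (Q * P) τ) (hH : HarB (Q * P) H) (hτ0 : 0 ≤ τ)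
    (hinj : ∀ x ∈ s, ∀ y ∈ s, a1 x = a1 y → b1 x = b1 y → a2 x = a2 y → b2 x = b2 y →
      sv x = sv y → V x = V y → V' x = V' y → x = y)
    (ha1 : ∀ x ∈ s, |a1 x| < F) (hb1 : ∀ x ∈ s, |b1 x| < P)
    (ha2 : ∀ x ∈ s, |a2 x| < F) (hb2 : ∀ x ∈ s, |b2 x| < P)
    (hΔ : ∀ x ∈ s, a1 x * b2 x ≠ a2 x * b1 x)
    (hle : ∀ x ∈ s, |a2 x + Q * b2 x| ≤ |a1 x + Q * b1 x|)
    (hs : ∀ x ∈ s, 0 ≤ sv x ∧ sv x < Q) (hV : ∀ x ∈ s, |V x| < Q * P)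
    (h1 : ∀ x ∈ s, Q ∣ V x - sv x * (a1 x + Q * b1 x))
    (h2 : ∀ x ∈ s, Q ∣ V' x - sv x * (a2 x + Q * b2 x))
    (h3 : ∀ x ∈ s, 2 * |(a1 x + Q * b1 x) * V' x - (a2 x + Q * b2 x) * V x| < Q) :
    (s.card : ℝ) ≤ 360 * F ^ 2 * P ^ 2 * τ * H := by
  classical
  have hQ : 0 < Q := by omega
  have hQ' : (0 : ℝ) < Q := by exact_mod_cast hQ
  have hP' : (0 : ℝ) < P := by exact_mod_cast hP
  refine (card_le_sum_of_fiber s (fun x => (a1 x, b1 x, a2 x, b2 x))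
    (fun y : ℤ × ℤ × ℤ × ℤ => 6 * (Q * P) * ((Int.gcd (y.1 + Q * y.2.1) (y.2.2.1 + Q * y.2.2.2) : ℝ)
      / |((y.1 + Q * y.2.1 : ℤ) : ℝ)|)) ?_).trans ?_
  · intro x0 hx0
    obtain ⟨s0, hs0⟩ : ∃ s0, s0 = s.filter (fun y => (a1 y, b1 y, a2 y, b2 y) =
      (a1 x0, b1 x0, a2 x0, b2 x0)) := ⟨_, rfl⟩
    rw [← hs0]
    have hm : ∀ x ∈ s0, x ∈ s ∧ a1 x = a1 x0 ∧ b1 x = b1 x0 ∧ a2 x = a2 x0 ∧ b2 x = b2 x0 := by
      intro x hx
      rw [hs0, mem_filter] at hx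
      simpa using hx
    have hU0 : a1 x0 + Q * b1 x0 ≠ 0 := by
      intro h
      have e := hle x0 hx0
      rw [h, abs_zero, abs_nonpos_iff] at e
      apply hΔ x0 hx0
      linear_combination b2 x0 * h - b1 x0 * e
    have := lemmaA s0 sv V V' (a1 x0 + Q * b1 x0) (a2 x0 + Q * b2 x0) 0 0 Q (Q * P) hQ hU0
      (abs_digit_le _ _ F P Q hQ (by omega) (ha1 x0 hx0) (hb1 x0 hx0))
      (fun x hx y hy e1 e2 e3 => by
        obtain ⟨p0, p1, p2, p3, p4⟩ := hm x hx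
        obtain ⟨q0, q1, q2, q3, q4⟩ := hm y hy
        exact hinj x p0 y q0 (by rw [p1, q1]) (by rw [p2, q2]) (by rw [p3, q3]) (by rw [p4, q4])
          e1 e2 e3)
      (fun x hx => hs x (hm x hx).1) (fun x hx => hV x (hm x hx).1)
      (fun x hx => by
        obtain ⟨p0, p1, p2, p3, p4⟩ := hm x hx
        have := h1 x p0
        rwa [p1, p2, ← sub_zero (V x)] at this)
      (fun x hx => by
        obtain ⟨p0, p1, p2, p3, p4⟩ := hm x hx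
        have := h2 x p0
        rwa [p3, p4, ← sub_zero (V' x)] at this)
      (fun x hx => by
        obtain ⟨p0, p1, p2, p3, p4⟩ := hm x hx
        have := h3 x p0
        rwa [p1, p2, p3, p4] at this)
    simpa using this
  · rw [← mul_sum]
    have := sumS (s.image (fun x => (a1 x, b1 x, a2 x, b2 x))) (fun y => y.1) (fun y => y.2.1)
      (fun y => y.2.2.1) (fun y => y.2.2.2) F P Q τ H hF hP hFQ hN hτ hH hτ0
      (fun x _ y _ e1 e2 e3 e4 => Prod.ext e1 (Prod.ext e2 (Prod.ext e3 e4)))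
      (fun y hy => by obtain ⟨x, hx, rfl⟩ := mem_image.1 hy; exact ha1 x hx)
      (fun y hy => by obtain ⟨x, hx, rfl⟩ := mem_image.1 hy; exact hb1 x hx)
      (fun y hy => by obtain ⟨x, hx, rfl⟩ := mem_image.1 hy; exact ha2 x hx)
      (fun y hy => by obtain ⟨x, hx, rfl⟩ := mem_image.1 hy; exact hb2 x hx)
      (fun y hy => by obtain ⟨x, hx, rfl⟩ := mem_image.1 hy; exact hΔ x hx)
      (fun y hy => by obtain ⟨x, hx, rfl⟩ := mem_image.1 hy; exact hle x hx)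
    refine (mul_le_mul_of_nonneg_left this (by positivity)).trans (le_of_eq ?_)
    field_simp; ring

/-- Three points of one type. -/
lemma count3 (hF : 0 < F) (hP : 0 < P) (hFQ : 2 * F ≤ Q) (hN : Q * P ≤ F * F)
    (hτ : DivB (Q * P) τ) (hH : HarB (Q * P) H) (hτ0 : 0 ≤ τ)
    (hinj : ∀ x ∈ s, ∀ y ∈ s, a1 x = a1 y → b1 x = b1 y → a2 x = a2 y → b2 x = b2 y →
      sv x = sv y → V x = V y → V' x = V' y → x = y)
    (ha1 : ∀ x ∈ s, |a1 x| < F) (hb1 : ∀ x ∈ s, |b1 x| < P)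
    (ha2 : ∀ x ∈ s, |a2 x| < F) (hb2 : ∀ x ∈ s, |b2 x| < P)
    (hΔ : ∀ x ∈ s, a1 x * b2 x ≠ a2 x * b1 x)
    (hs : ∀ x ∈ s, 0 ≤ sv x ∧ sv x < Q) (hV : ∀ x ∈ s, |V x| < Q * P)
    (hV' : ∀ x ∈ s, |V' x| < Q * P)
    (h1 : ∀ x ∈ s, Q ∣ V x - sv x * (a1 x + Q * b1 x))
    (h2 : ∀ x ∈ s, Q ∣ V' x - sv x * (a2 x + Q * b2 x))
    (h3 : ∀ x ∈ s, 2 * |(a1 x + Q * b1 x) * V' x - (a2 x + Q * b2 x) * V x| < Q) :
    (s.card : ℝ) ≤ 720 * F ^ 2 * P ^ 2 * τ * H := by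
  classical
  rw [← card_filter_add_card_filter_not (s := s)
    (fun x => |a2 x + Q * b2 x| ≤ |a1 x + Q * b1 x|)]
  have e1 := count3_half (s.filter (fun x => |a2 x + Q * b2 x| ≤ |a1 x + Q * b1 x|))
    a1 b1 a2 b2 sv V V' F P Q τ H hF hP hFQ hN hτ hH hτ0
    (fun x hx y hy => hinj x (mem_filter.1 hx).1 y (mem_filter.1 hy).1)
    (fun x hx => ha1 x (mem_filter.1 hx).1) (fun x hx => hb1 x (mem_filter.1 hx).1)
    (fun x hx => ha2 x (mem_filter.1 hx).1) (fun x hx => hb2 x (mem_filter.1 hx).1)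
    (fun x hx => hΔ x (mem_filter.1 hx).1) (fun x hx => (mem_filter.1 hx).2)
    (fun x hx => hs x (mem_filter.1 hx).1) (fun x hx => hV x (mem_filter.1 hx).1)
    (fun x hx => h1 x (mem_filter.1 hx).1) (fun x hx => h2 x (mem_filter.1 hx).1)
    (fun x hx => h3 x (mem_filter.1 hx).1)
  have e2 := count3_half (s.filter (fun x => ¬ |a2 x + Q * b2 x| ≤ |a1 x + Q * b1 x|))
    a2 b2 a1 b1 sv V' V F P Q τ H hF hP hFQ hN hτ hH hτ0
    (fun x hx y hy p1 p2 p3 p4 p5 p6 p7 =>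
      hinj x (mem_filter.1 hx).1 y (mem_filter.1 hy).1 p3 p4 p1 p2 p5 p7 p6)
    (fun x hx => ha2 x (mem_filter.1 hx).1) (fun x hx => hb2 x (mem_filter.1 hx).1)
    (fun x hx => ha1 x (mem_filter.1 hx).1) (fun x hx => hb1 x (mem_filter.1 hx).1)
    (fun x hx => (hΔ x (mem_filter.1 hx).1).symm)
    (fun x hx => (not_le.1 (mem_filter.1 hx).2).le)
    (fun x hx => hs x (mem_filter.1 hx).1) (fun x hx => hV' x (mem_filter.1 hx).1)
    (fun x hx => h2 x (mem_filter.1 hx).1) (fun x hx => h1 x (mem_filter.1 hx).1)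
    (fun x hx => by rw [abs_sub_comm]; exact h3 x (mem_filter.1 hx).1)
  push_cast
  linarith

end

end Vale.Agent.P036
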