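import Vale.Agent.P036.Count2

namespace Vale.Agent.P036

open Finset

lemma succ_pow_le (v k : ℕ) : (v + 1) ^ k ≤ k.factorial * 2 ^ k * 2 ^ v := by
  calc (v + 1) ^ k ≤ (v + 1).ascFactorial k := Nat.pow_succ_le_ascFactorial _ _
    _ = k.factorial * (v + k).choose k := Nat.ascFactorial_eq_factorial_mul_choose _ _
    _ ≤ k.factorial * 2 ^ (v + k) := Nat.mul_le_mul_left _ (Nat.choose_le_two_pow _ _)
    _ = _ := by ring

lemma divisors_pow_le (k : ℕ) : ∃ C : ℕ, ∀ n : ℕ, n ≠ 0 → n.divisors.card ^ k ≤ C * n := by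
  obtain ⟨c, hc⟩ : ∃ c, c = k.factorial * 2 ^ k := ⟨_, rfl⟩
  have hc1 : 1 ≤ c := by rw [hc]; exact Nat.mul_pos k.factorial_pos (by positivity)
  refine ⟨c ^ 2 ^ k, fun n hn => ?_⟩
  rw [Nat.card_divisors hn, ← prod_pow]
  have h1 : ∏ p ∈ n.primeFactors, (n.factorization p + 1) ^ k ≤
      ∏ p ∈ n.primeFactors, ((if p < 2 ^ k then c else 1) * p ^ n.factorization p) := by
    refine prod_le_prod' fun p hp => ?_
    have h2 := (Nat.prime_of_mem_primeFactors hp).two_le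
    split_ifs with h
    · rw [hc]
      exact (succ_pow_le _ _).trans (Nat.mul_le_mul_left _ (Nat.pow_le_pow_left h2 _))
    · rw [one_mul]
      calc (n.factorization p + 1) ^ k ≤ (2 ^ n.factorization p) ^ k :=
            Nat.pow_le_pow_left Nat.lt_two_pow_self k
        _ = (2 ^ k) ^ n.factorization p := by rw [← pow_mul, ← pow_mul, mul_comm]
        _ ≤ _ := Nat.pow_le_pow_left (not_lt.1 h) _
  refine h1.trans ?_
  rw [prod_mul_distrib]
  have h2 : ∏ p ∈ n.primeFactors, p ^ n.factorization p = n :=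
    Nat.prod_factorization_pow_eq_self hn
  rw [h2, prod_ite, prod_const_one, mul_one, prod_const]
  refine Nat.mul_le_mul_right _ (Nat.pow_le_pow_right hc1 ?_)
  calc _ ≤ (range (2 ^ k)).card := card_le_card fun p hp => mem_range.2 (mem_filter.1 hp).2
    _ = _ := card_range _

lemma card_natAbs_fiber (s : Finset ℤ) (x : ℤ) :
    ((s.filter (fun y => y.natAbs = x.natAbs)).card : ℝ) ≤ 2 := by
  have : s.filter (fun y => y.natAbs = x.natAbs) ⊆ {x, -x} := by
    intro y hy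
    have := (mem_filter.1 hy).2
    simp only [mem_insert, mem_singleton]
    omega
  exact_mod_cast (card_le_card this).trans card_le_two

lemma divB_of (T : ℕ) : ∃ q0 : ℕ, ∀ q : ℕ, q0 ≤ q → ∀ N : ℤ, N ≤ (q : ℤ) ^ T → DivB N q := by
  obtain ⟨C, hC⟩ := divisors_pow_le (T + 1)
  refine ⟨2 ^ (T + 1) * C, fun q hq N hN n hn hnN s hs => ?_⟩
  have h1 : 2 * n.natAbs.divisors.card ≤ q := by
    have e1 := hC n.natAbs (Int.natAbs_ne_zero.2 hn)
    have e2 : n.natAbs ≤ q ^ T := by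
      have : (n.natAbs : ℤ) ≤ (q : ℤ) ^ T := by rw [Int.natCast_natAbs]; exact hnN.trans hN
      exact_mod_cast this
    apply (Nat.pow_le_pow_iff_left (Nat.succ_ne_zero T)).1
    calc (2 * n.natAbs.divisors.card) ^ (T + 1) = 2 ^ (T + 1) * n.natAbs.divisors.card ^ (T + 1) :=
          mul_pow _ _ _
      _ ≤ 2 ^ (T + 1) * (C * q ^ T) :=
          Nat.mul_le_mul_left _ (e1.trans (Nat.mul_le_mul_left _ e2))
      _ = (2 ^ (T + 1) * C) * q ^ T := by ring
      _ ≤ q * q ^ T := Nat.mul_le_mul_right _ hq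
      _ = q ^ (T + 1) := by ring
  have h2 : ((s.image Int.natAbs).card : ℝ) ≤ n.natAbs.divisors.card := by
    have : s.image Int.natAbs ⊆ n.natAbs.divisors := by
      intro d hd
      obtain ⟨b, hb, rfl⟩ := mem_image.1 hd
      exact Nat.mem_divisors.2 ⟨Int.natAbs_dvd_natAbs.2 (hs b hb), Int.natAbs_ne_zero.2 hn⟩
    exact_mod_cast card_le_card this
  have h3 := card_le_mul_of_fiber s Int.natAbs _ 2 (by norm_num) h2
    (fun x _ => card_natAbs_fiber s x)
  have h4 : (2 : ℝ) * n.natAbs.divisors.card ≤ q := by exact_mod_cast h1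
  linarith

lemma harB_of (T : ℕ) : ∃ q0 : ℕ, ∀ q : ℕ, q0 ≤ q → ∀ N : ℤ, N ≤ (q : ℤ) ^ T → HarB N q := by
  refine ⟨(4 * T + 2) ^ 2, fun q hq N hN s hs => ?_⟩
  have hq' : ((4 * T + 2 : ℝ)) ^ 2 ≤ q := by exact_mod_cast hq
  have hT : (0 : ℝ) ≤ T := Nat.cast_nonneg _
  have hq0 : (0 : ℝ) < q := lt_of_lt_of_le (by positivity) hq'
  have h1 := sum_le_of_fiber s Int.natAbs (fun k => 1 / |(k : ℝ)|) (fun d => 2 * ((d : ℝ))⁻¹)
    (fun x _ => by
      rw [sum_congr rfl (g := fun _ => ((x.natAbs : ℝ))⁻¹) (fun y hy => by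
        rw [← (mem_filter.1 hy).2, Nat.cast_natAbs, Int.cast_abs, one_div]),
        sum_const, nsmul_eq_mul]
      exact mul_le_mul_of_nonneg_right (card_natAbs_fiber s x) (by positivity))
  refine h1.trans ?_
  rw [← mul_sum]
  have h2 : ∑ d ∈ s.image Int.natAbs, ((d : ℝ))⁻¹ ≤ ∑ d ∈ Icc 1 (q ^ T), ((d : ℝ))⁻¹ := by
    refine sum_le_sum_of_subset_of_nonneg ?_ (fun _ _ _ => by positivity)
    intro d hd
    obtain ⟨b, hb, rfl⟩ := mem_image.1 hd
    obtain ⟨e1, e2⟩ := hs b hb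
    refine mem_Icc.2 ⟨Int.natAbs_pos.2 e1, ?_⟩
    have : (b.natAbs : ℤ) ≤ (q : ℤ) ^ T := by rw [Int.natCast_natAbs]; exact e2.trans hN
    exact_mod_cast this
  have h3 := harmonic_le_one_add_log (q ^ T)
  simp only [harmonic_eq_sum_Icc, Rat.cast_sum, Rat.cast_inv, Rat.cast_natCast] at h3
  rw [Nat.cast_pow, Real.log_pow] at h3
  obtain ⟨r, hr⟩ : ∃ r, r = Real.sqrt q := ⟨_, rfl⟩
  have hr0 : 0 < r := hr ▸ Real.sqrt_pos.2 hq0
  have hr2 : r ^ 2 = q := hr ▸ Real.sq_sqrt hq0.le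
  have hr3 : 4 * T + 2 ≤ r := by
    rw [hr]; exact Real.le_sqrt_of_sq_le hq'
  have h4 : Real.log q ≤ 2 * r := by
    rw [← hr2, Real.log_pow]
    have := Real.log_le_sub_one_of_pos hr0
    push_cast; linarith
  have h5 : T * Real.log q ≤ T * (2 * r) := mul_le_mul_of_nonneg_left h4 hT
  nlinarith

end Vale.Agent.P036
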