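import Mathlib

namespace Vale.Agent.P036

open Finset

/-- The norm of a difference is an antisymmetric nowhere vanishing kernel of bounded rank. -/
lemma exists_norm_kernel (e : ℕ) (he : Odd e) (q : ℕ) [Fact q.Prime] :
    ∃ φ ψ : (Equiv.Perm (Fin e) × Finset (Fin e)) → Fin (q ^ e) → ZMod q,
      (∀ a b, ∑ i, φ i b * ψ i a = -∑ i, φ i a * ψ i b) ∧
      ∀ a b, a ≠ b → ∑ i, φ i a * ψ i b ≠ 0 := by
  classical
  have he0 : e ≠ 0 := by rintro rfl; simp at he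
  let bs := Module.finBasisOfFinrankEq (ZMod q) (GaloisField q e) (GaloisField.finrank q he0)
  let ι : Fin (q ^ e) ≃ GaloisField q e :=
    (Finite.equivFinOfCardEq (GaloisField.card q e he0)).symm
  let M : GaloisField q e → Matrix (Fin e) (Fin e) (ZMod q) := fun x => Algebra.leftMulMatrix bs x
  have key : ∀ x y : GaloisField q e, ∑ i : Equiv.Perm (Fin e) × Finset (Fin e),
      ((Equiv.Perm.sign i.1 : ℤ) * ∏ t ∈ i.2, M x (i.1 t) t) * (∏ t ∈ i.2ᶜ, -M y (i.1 t) t) =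
      (M x - M y).det := by
    intro x y
    rw [Matrix.det_apply', Fintype.sum_prod_type]
    refine sum_congr rfl fun σ _ => ?_
    simp only [Matrix.sub_apply, sub_eq_add_neg]
    rw [Fintype.prod_add, mul_sum]
    exact sum_congr rfl fun t _ => by ring
  refine ⟨fun i a => (Equiv.Perm.sign i.1 : ℤ) * ∏ t ∈ i.2, M (ι a) (i.1 t) t,
    fun i b => ∏ t ∈ i.2ᶜ, -M (ι b) (i.1 t) t, fun a b => ?_, fun a b hab => ?_⟩
  · rw [key, key, ← neg_sub (M (ι a)), Matrix.det_neg, Fintype.card_fin, he.neg_one_pow]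
    ring
  · rw [key]
    have : M (ι a) - M (ι b) = Algebra.leftMulMatrix bs (ι a - ι b) := by simp [M]
    rw [this, ← Algebra.norm_eq_matrix_det]
    exact Algebra.norm_ne_zero_iff.2 (sub_ne_zero.2 fun h => hab (ι.injective h))

/-- The cyclic sum of the antisymmetrisation of a kernel. -/
def cyc {A : Type*} (f : A → A → ℤ) (a b c : A) : ℤ :=
  f a b - f b a + (f b c - f c b) + (f c a - f a c)

lemma exists_int_kernel {I A : Type*} [Fintype I] (q : ℕ) [Fact q.Prime] (hq : 5 ≤ q)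
    (hI : 3 * Fintype.card I ^ 3 < q) (φ ψ : I → A → ZMod q)
    (h1 : ∀ a b, ∑ i, φ i b * ψ i a = -∑ i, φ i a * ψ i b)
    (h2 : ∀ a b, a ≠ b → ∑ i, φ i a * ψ i b ≠ 0) :
    ∃ Φ Ψ : (I ⊕ I × I × I) → A → ℤ, (∀ i a, 0 ≤ Φ i a ∧ Φ i a ≤ (q : ℤ) ^ 4) ∧
      (∀ i a, 0 ≤ Ψ i a ∧ Ψ i a ≤ (q : ℤ) ^ 4) ∧
      ∀ a b c, a ≠ b → a ≠ c → b ≠ c →
        ¬ (q : ℤ) ^ 4 ∣ cyc (fun a b => ∑ i, Φ i a * Ψ i b) a b c := by
  have hq1 : (1 : ℤ) ≤ q := by exact_mod_cast (by omega : 1 ≤ q)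
  have hval : ∀ x : ZMod q, (0 : ℤ) ≤ x.val ∧ (x.val : ℤ) ≤ q := fun x =>
    ⟨Int.natCast_nonneg _, by exact_mod_cast x.val_lt.le⟩
  have hq4 : (q : ℤ) ≤ (q : ℤ) ^ 4 := le_self_pow₀ hq1 (by norm_num)
  refine ⟨Sum.elim (fun i a => (φ i a).val) (fun i a => (φ i.1 a * φ i.2.1 a * φ i.2.2 a).val),
    Sum.elim (fun i a => (q : ℤ) ^ 3 * (ψ i a).val)
      (fun i a => (ψ i.1 a * ψ i.2.1 a * ψ i.2.2 a).val), ?_, ?_, ?_⟩
  · rintro (i | i) a
    · exact ⟨(hval _).1, (hval _).2.trans hq4⟩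
    · exact ⟨(hval _).1, (hval _).2.trans hq4⟩
  · rintro (i | i) a
    · refine ⟨mul_nonneg (by positivity) (hval _).1, ?_⟩
      calc (q : ℤ) ^ 3 * (ψ i a).val ≤ (q : ℤ) ^ 3 * q :=
            mul_le_mul_of_nonneg_left (hval _).2 (by positivity)
        _ = _ := by ring
    · exact ⟨(hval _).1, (hval _).2.trans hq4⟩
  intro a b c hab hac hbc hdvd
  obtain ⟨f1, hf1⟩ : ∃ f1 : A → A → ℤ, f1 = fun a b => ∑ i, ((φ i a).val : ℤ) * (ψ i b).val :=
    ⟨_, rfl⟩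
  obtain ⟨f3, hf3⟩ : ∃ f3 : A → A → ℤ, f3 = fun a b => ∑ i : I × I × I,
    ((φ i.1 a * φ i.2.1 a * φ i.2.2 a).val : ℤ) * (ψ i.1 b * ψ i.2.1 b * ψ i.2.2 b).val :=
    ⟨_, rfl⟩
  obtain ⟨g, hg⟩ : ∃ g : A → A → ZMod q, g = fun a b => ∑ i, φ i a * ψ i b := ⟨_, rfl⟩
  have e1 : ∀ a b, (f1 a b : ZMod q) = g a b := by
    intro a b; simp [hf1, hg]
  have e3 : ∀ a b, (f3 a b : ZMod q) = g a b ^ 3 := by
    intro a b
    simp only [hf3, hg, Int.cast_sum, Int.cast_mul, Int.cast_natCast, ZMod.natCast_zmod_val,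
      pow_succ, pow_zero, one_mul, sum_mul, mul_sum, Fintype.sum_prod_type]
    refine sum_congr rfl fun i _ => sum_congr rfl fun j _ => sum_congr rfl fun k _ => by ring
  have b3 : ∀ a b, 0 ≤ f3 a b ∧ f3 a b ≤ (Fintype.card I : ℤ) ^ 3 * q ^ 2 := by
    intro a b
    rw [hf3]
    refine ⟨sum_nonneg fun i _ => mul_nonneg (hval _).1 (hval _).1, ?_⟩
    refine (sum_le_card_nsmul _ _ ((q : ℤ) ^ 2) fun i _ => ?_).trans (le_of_eq ?_)
    · rw [sq]; exact mul_le_mul (hval _).2 (hval _).2 (hval _).1 (by positivity)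
    · simp only [card_univ, Fintype.card_prod, nsmul_eq_mul]; push_cast; ring
  have hsplit : cyc (fun a b => ∑ i, Sum.elim (fun i a => ((φ i a).val : ℤ))
      (fun i a => ((φ i.1 a * φ i.2.1 a * φ i.2.2 a).val : ℤ)) i a *
      Sum.elim (fun i a => (q : ℤ) ^ 3 * (ψ i a).val)
      (fun i : I × I × I => fun a => ((ψ i.1 a * ψ i.2.1 a * ψ i.2.2 a).val : ℤ)) i b) a b c =
      (q : ℤ) ^ 3 * cyc f1 a b c + cyc f3 a b c := by
    have : ∀ a b, ∑ i, ((φ i a).val : ℤ) * ((q : ℤ) ^ 3 * (ψ i b).val) = q ^ 3 * f1 a b := by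
      intro a b
      rw [hf1, mul_sum]
      exact sum_congr rfl fun i _ => by ring
    simp only [cyc, Fintype.sum_sum_type, Sum.elim_inl, Sum.elim_inr, this]
    rw [hf3]
    ring
  rw [hsplit] at hdvd
  have hI' : 3 * (Fintype.card I : ℤ) ^ 3 < q := by exact_mod_cast hI
  have z3 : cyc f3 a b c = 0 := by
    have d3 : (q : ℤ) ^ 3 ∣ cyc f3 a b c :=
      (dvd_add_right (Dvd.intro _ rfl)).1 ((pow_dvd_pow _ (by norm_num)).trans hdvd)
    apply Int.eq_zero_of_abs_lt_dvd d3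
    have := b3 a b; have := b3 b a; have := b3 b c; have := b3 c b; have := b3 c a
    have := b3 a c
    have : 3 * ((Fintype.card I : ℤ) ^ 3 * q ^ 2) < (q : ℤ) ^ 3 := by
      have : (0 : ℤ) < (q : ℤ) ^ 2 := by positivity
      nlinarith
    rw [cyc, abs_lt]
    constructor <;> linarith
  have z1 : (q : ℤ) ∣ cyc f1 a b c := by
    rw [z3, add_zero, pow_succ] at hdvd
    exact (mul_dvd_mul_iff_left (by positivity)).1 hdvd
  have w1 : ((cyc f1 a b c : ℤ) : ZMod q) = 0 := (ZMod.intCast_zmod_eq_zero_iff_dvd _ _).2 z1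
  have w3 : ((cyc f3 a b c : ℤ) : ZMod q) = 0 := by rw [z3]; simp
  have anti : ∀ a b, g b a = -g a b := fun a b => by rw [hg]; exact h1 a b
  have nz : ∀ a b, a ≠ b → g a b ≠ 0 := fun a b => by rw [hg]; exact h2 a b
  simp only [cyc, Int.cast_add, Int.cast_sub, e1, e3] at w1 w3
  rw [anti a b, anti b c, anti c a] at w1 w3
  have h6 : ((6 : ℕ) : ZMod q) ≠ 0 := by
    rw [Ne, ZMod.natCast_eq_zero_iff]
    intro h
    have hp : q.Prime := Fact.out
    have := Nat.le_of_dvd (by norm_num) h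
    have h5 : q = 5 ∨ q = 6 := by omega
    rcases h5 with rfl | rfl
    · norm_num at h
    · norm_num at hp
  have : ((6 : ℕ) : ZMod q) * (g a b * g b c * g c a) = 0 := by
    push_cast
    linear_combination w3 - (g a b ^ 2 + g b c ^ 2 + g c a ^ 2 - g a b * g b c - g b c * g c a
      - g c a * g a b) * w1
  exact mul_ne_zero h6 (mul_ne_zero (mul_ne_zero (nz a b hab) (nz b c hbc)) (nz c a hac.symm)) this

end Vale.Agent.P036
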