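import Vale.Agent.P036.Kernel

namespace Vale.Agent.P036

open Finset

lemma approx_sum {I : Type*} [Fintype I] (z : I → ℤ) (m e : ℤ)
    (h : ∀ i, ∃ t, |z i - m * t| ≤ e) :
    ∃ t, |∑ i, z i - m * t| ≤ Fintype.card I * e := by
  choose t ht using h
  refine ⟨∑ i, t i, ?_⟩
  rw [mul_sum, ← sum_sub_distrib]
  refine (abs_sum_le_sum_abs _ _).trans ?_
  refine (sum_le_card_nsmul _ _ e fun i _ => ht i).trans (le_of_eq ?_)
  simp

lemma approx_term (m i j : ℕ) (hj : j < m) (M B u v : ℤ) (hM : 0 < M) (hB : 0 < B)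
    (hu : 0 ≤ u ∧ u ≤ M) (hv : 0 ≤ v ∧ v ≤ M) :
    ∃ t, |M * (u * B ^ i) * (B / M * (v * B ^ (m - j))) - (if i = j then B ^ (m + 1) * (u * v) else 0)
      - M * B ^ (m + 1) * t| ≤ M ^ 3 * B ^ m := by
  have huv : u * v ≤ M ^ 2 := by rw [sq]; exact mul_le_mul hu.2 hv.2 hv.1 hM.le
  have huv0 : 0 ≤ u * v := mul_nonneg hu.1 hv.1
  have hdiv := Int.mul_ediv_add_emod B M
  have hmod0 := Int.emod_nonneg B hM.ne'
  have hmod1 := Int.emod_lt_of_pos B hM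
  have hBm : 0 < B ^ m := by positivity
  rcases lt_trichotomy i j with h | h | h
  · refine ⟨0, ?_⟩
    rw [if_neg h.ne, mul_zero, sub_zero, sub_zero]
    have h0 : 0 ≤ B / M := Int.ediv_nonneg hB.le hM.le
    have e : M * (u * B ^ i) * (B / M * (v * B ^ (m - j))) =
        (M * (B / M)) * B ^ (i + (m - j)) * (u * v) := by rw [pow_add]; ring
    have e2 : (M * (B / M)) * B ^ (i + (m - j)) ≤ B ^ m := by
      calc (M * (B / M)) * B ^ (i + (m - j)) ≤ B * B ^ (i + (m - j)) :=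
            mul_le_mul_of_nonneg_right (by linarith) (by positivity)
        _ = B ^ (i + (m - j) + 1) := by ring
        _ ≤ B ^ m := pow_le_pow_right₀ hB (by omega)
    rw [e, abs_of_nonneg (by positivity)]
    have e3 : M ^ 2 ≤ M ^ 3 := pow_le_pow_right₀ hM (by norm_num)
    calc _ ≤ B ^ m * M ^ 3 := mul_le_mul e2 (huv.trans e3) huv0 hBm.le
      _ = _ := by ring
  · subst h
    refine ⟨0, ?_⟩
    rw [if_pos rfl, mul_zero, sub_zero]
    have e : M * (u * B ^ i) * (B / M * (v * B ^ (m - i))) - B ^ (m + 1) * (u * v) =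
        -(B % M * (u * v) * B ^ m) := by
      have : B ^ m = B ^ i * B ^ (m - i) := by rw [← pow_add]; congr 1; omega
      rw [pow_succ, this]
      linear_combination (u * v * B ^ i * B ^ (m - i)) * hdiv
    rw [e, abs_neg, abs_of_nonneg (by positivity)]
    refine mul_le_mul_of_nonneg_right ?_ hBm.le
    calc B % M * (u * v) ≤ M * M ^ 2 := mul_le_mul hmod1.le huv huv0 hM.le
      _ = _ := by ring
  · refine ⟨B / M * (u * v) * B ^ (i - j - 1), ?_⟩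
    rw [if_neg h.ne', sub_zero]
    have : B ^ i * B ^ (m - j) = B ^ (m + 1) * B ^ (i - j - 1) := by
      rw [← pow_add, ← pow_add]; congr 1; omega
    have e : M * (u * B ^ i) * (B / M * (v * B ^ (m - j))) -
        M * B ^ (m + 1) * (B / M * (u * v) * B ^ (i - j - 1)) = 0 := by
      linear_combination (M * (B / M) * (u * v)) * this
    rw [e, abs_zero]
    positivity

lemma simulate (m a B : ℕ) (M : ℤ) (hM : 0 < M) (hB : B.Prime) (haB : a ≤ B)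
    (hBM : 12 * (m * (m + 1)) * M ^ 3 ≤ B) (Φ Ψ : Fin m → Fin a → ℤ)
    (hΦ : ∀ i x, 0 ≤ Φ i x ∧ Φ i x ≤ M) (hΨ : ∀ i x, 0 ≤ Ψ i x ∧ Ψ i x ≤ M)
    (hK : ∀ x y z, x ≠ y → x ≠ z → y ≠ z → ¬ M ∣ cyc (fun x y => ∑ i, Φ i x * Ψ i y) x y z) :
    ∃ X Y : Fin a → ℤ, (∀ x, 0 ≤ Y x ∧ Y x < (B : ℤ) ^ (m + 1)) ∧
      (∀ x y, x ≠ y → IsCoprime (Y x - Y y) ((B : ℤ) ^ (m + 1))) ∧
      ∀ x y z, x ≠ y → x ≠ z → y ≠ z → ∀ t : ℤ,
        (B : ℤ) ^ (m + 1) ≤ 2 * M * |cyc (fun x y => X x * Y y) x y z - (B : ℤ) ^ (m + 1) * t| := by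
  have hB0 : (0 : ℤ) < B := by exact_mod_cast hB.pos
  obtain ⟨Q, hQ⟩ : ∃ Q : ℤ, Q = (B : ℤ) ^ (m + 1) := ⟨_, rfl⟩
  have hQ0 : 0 < Q := by rw [hQ]; positivity
  obtain ⟨X, hX⟩ : ∃ X : Fin a → ℤ, X = fun x => ∑ i, Φ i x * (B : ℤ) ^ (i : ℕ) := ⟨_, rfl⟩
  obtain ⟨Y0, hY0⟩ : ∃ Y0 : Fin a → ℤ,
    Y0 = fun y : Fin a => ((y : ℕ) : ℤ) +
      ∑ j : Fin m, (B : ℤ) / M * (Ψ j y * (B : ℤ) ^ (m - j)) := ⟨_, rfl⟩
  obtain ⟨f, hf⟩ : ∃ f : Fin a → Fin a → ℤ, f = fun x y => ∑ i, Φ i x * Ψ i y := ⟨_, rfl⟩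
  rw [← hf] at hK
  have happ : ∀ x y, ∃ t, |M * X x * (Y0 y % Q) - Q * f x y - M * Q * t| ≤
      m * (m + 1) * (M ^ 3 * B ^ m) := by
    intro x y
    obtain ⟨t, ht⟩ := approx_sum (fun i : Fin m => M * (Φ i x * (B : ℤ) ^ (i : ℕ)) * (y : ℕ) +
        ∑ j : Fin m, (M * (Φ i x * (B : ℤ) ^ (i : ℕ)) * (B / M * (Ψ j y * (B : ℤ) ^ (m - j))) -
          if (i : ℕ) = j then (B : ℤ) ^ (m + 1) * (Φ i x * Ψ j y) else 0)) (M * Q)
        ((m + 1) * (M ^ 3 * B ^ m)) (fun i => by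
      obtain ⟨t, ht⟩ := approx_sum (fun j : Fin m =>
        (M * (Φ i x * (B : ℤ) ^ (i : ℕ)) * (B / M * (Ψ j y * (B : ℤ) ^ (m - j))) -
          if (i : ℕ) = j then (B : ℤ) ^ (m + 1) * (Φ i x * Ψ j y) else 0)) (M * Q) (M ^ 3 * B ^ m)
        (fun j => by rw [hQ]; exact approx_term m i j j.2 M B _ _ hM hB0 (hΦ i x) (hΨ j y))
      refine ⟨t, ?_⟩
      rw [add_sub_assoc]
      refine (abs_add_le _ _).trans ?_
      rw [Fintype.card_fin] at ht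
      have e0 := (hΦ i x).1
      have e1 : M * (Φ i x * (B : ℤ) ^ (i : ℕ)) * (y : ℕ) ≤ M ^ 3 * B ^ m := by
        have y1 : ((y : ℕ) : ℤ) ≤ B := by exact_mod_cast (y.2.le.trans haB)
        have y2 : (B : ℤ) ^ ((i : ℕ) + 1) ≤ B ^ m := pow_le_pow_right₀ hB0 i.2
        have y3 : M ^ 2 ≤ M ^ 3 := pow_le_pow_right₀ hM (by norm_num)
        calc _ ≤ M * (M * (B : ℤ) ^ (i : ℕ)) * B := by gcongr; exact (hΦ i x).2
          _ = M ^ 2 * B ^ ((i : ℕ) + 1) := by ring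
          _ ≤ _ := by gcongr
      rw [abs_of_nonneg (by positivity)]
      linarith)
    refine ⟨t - X x * (Y0 y / Q), ?_⟩
    rw [Fintype.card_fin] at ht
    have e : M * X x * (Y0 y % Q) - Q * f x y - M * Q * (t - X x * (Y0 y / Q)) =
        M * X x * Y0 y - Q * f x y - M * Q * t := by
      linear_combination (M * X x) * Int.mul_ediv_add_emod (Y0 y) Q
    rw [e, mul_assoc (m : ℤ)]
    convert ht using 3
    simp only [hX, hY0, hf, hQ, Fin.val_inj, sum_sub_distrib, sum_ite_eq, mem_univ, if_true,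
      sum_add_distrib, mul_add, mul_sum, sum_mul]
    rw [sum_comm]
    ring
  refine ⟨X, fun y => Y0 y % Q, fun x => ?_, fun x y hxy => ?_, fun x y z hxy hxz hyz t => ?_⟩
  · exact ⟨Int.emod_nonneg _ hQ0.ne', hQ ▸ Int.emod_lt_of_pos _ hQ0⟩
  · refine IsCoprime.pow_right (IsCoprime.symm ?_)
    rw [(Nat.prime_iff_prime_int.1 hB).coprime_iff_not_dvd]
    intro hd
    have hY : ∀ y, (B : ℤ) ∣ Y0 y % Q - (y : ℕ) := by
      intro y
      have e : Y0 y % Q - (y : ℕ) =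
          (∑ j : Fin m, (B : ℤ) / M * (Ψ j y * (B : ℤ) ^ (m - j))) - Q * (Y0 y / Q) := by
        have := Int.mul_ediv_add_emod (Y0 y) Q
        have e2 : Y0 y = (y : ℕ) + ∑ j : Fin m, (B : ℤ) / M * (Ψ j y * (B : ℤ) ^ (m - j)) := by
          rw [hY0]
        linarith
      rw [e]
      refine dvd_sub (dvd_sum fun j _ => ?_) (Dvd.dvd.mul_right (hQ ▸ dvd_pow_self _ (by omega)) _)
      exact Dvd.dvd.mul_left (Dvd.dvd.mul_left (dvd_pow_self _ (by have := j.2; omega)) _) _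
    have e : (B : ℤ) ∣ ((x : ℕ) : ℤ) - (y : ℕ) := by
      have := dvd_add (dvd_sub hd (hY x)) (hY y)
      have e3 : ((x : ℕ) : ℤ) - (y : ℕ) = Y0 x % Q - Y0 y % Q - (Y0 x % Q - (x : ℕ)) +
          (Y0 y % Q - (y : ℕ)) := by ring
      rw [e3]
      exact this
    have e2 := Int.eq_zero_of_abs_lt_dvd e (by
      have := x.2; have := y.2
      rw [abs_lt]; omega)
    exact hxy (Fin.ext (by omega))
  · rw [← hQ]
    obtain ⟨t1, h1⟩ := happ x y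
    obtain ⟨t2, h2⟩ := happ y x
    obtain ⟨t3, h3⟩ := happ y z
    obtain ⟨t4, h4⟩ := happ z y
    obtain ⟨t5, h5⟩ := happ z x
    obtain ⟨t6, h6⟩ := happ x z
    obtain ⟨E, hE⟩ : ∃ E : ℤ, E = m * (m + 1) * (M ^ 3 * B ^ m) := ⟨_, rfl⟩
    rw [← hE] at h1 h2 h3 h4 h5 h6
    have hEQ : 12 * E ≤ Q := by
      rw [hE, hQ, pow_succ (B : ℤ)]
      have : (0 : ℤ) < (B : ℤ) ^ m := by positivity
      nlinarith
    obtain ⟨w, hw⟩ : ∃ w, w = cyc f x y z + M * (t1 - t2 + t3 - t4 + t5 - t6 - t) := ⟨_, rfl⟩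
    have hw0 : w ≠ 0 := by
      intro h
      exact hK x y z hxy hxz hyz ⟨-(t1 - t2 + t3 - t4 + t5 - t6 - t), by linarith⟩
    have hw1 : Q ≤ |Q * w| := by
      rw [abs_mul, abs_of_pos hQ0]
      have := Int.one_le_abs hw0
      nlinarith
    obtain ⟨D, hD⟩ : ∃ D, D = cyc (fun x y => X x * (Y0 y % Q)) x y z - Q * t := ⟨_, rfl⟩
    rw [← hD]
    have e1 : |M * D - Q * w| ≤ 6 * E := by
      rw [abs_le] at h1 h2 h3 h4 h5 h6 ⊢
      rw [hD, hw]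
      simp only [cyc]
      constructor <;> linarith
    have e2 : |Q * w| ≤ |M * D| + |M * D - Q * w| := by
      have := abs_sub (M * D) (M * D - Q * w)
      rwa [sub_sub_cancel] at this
    rw [abs_mul M, abs_of_pos hM] at e2
    linarith

/-- The kernel: residues whose three-point determinants stay far from zero. -/
theorem exists_kernel : ∃ K q0 : ℕ, ∀ q : ℕ, q.Prime → q0 ≤ q → ∃ Q0 : ℕ, 0 < Q0 ∧ Q0 ≤ q ^ K ∧
    ∃ X Y : Fin (q ^ 13) → ℤ, (∀ x, 0 ≤ Y x ∧ Y x < Q0) ∧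
      (∀ x y, x ≠ y → IsCoprime (Y x - Y y) Q0) ∧
      ∀ x y z, x ≠ y → x ≠ z → y ≠ z → ∀ t : ℤ,
        (Q0 : ℤ) ≤ 2 * (q : ℤ) ^ 4 * |cyc (fun x y => X x * Y y) x y z - Q0 * t| := by
  classical
  obtain ⟨e, he⟩ : ∃ e : ℕ, e = 13 := ⟨_, rfl⟩
  obtain ⟨c, hc⟩ : ∃ c, c = Fintype.card (Equiv.Perm (Fin e) × Finset (Fin e)) := ⟨_, rfl⟩
  obtain ⟨m, hm⟩ : ∃ m, m = Fintype.card ((Equiv.Perm (Fin e) × Finset (Fin e)) ⊕
    (Equiv.Perm (Fin e) × Finset (Fin e)) × (Equiv.Perm (Fin e) × Finset (Fin e)) ×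
    (Equiv.Perm (Fin e) × Finset (Fin e))) := ⟨_, rfl⟩
  refine ⟨14 * (m + 1), 5 + 3 * c ^ 3 + 12 * (m * (m + 1)), fun q hq hq0 => ?_⟩
  have := Fact.mk hq
  obtain ⟨φ, ψ, h1, h2⟩ := exists_norm_kernel e (by rw [he]; decide) q
  obtain ⟨Φ, Ψ, h3, h4, h5⟩ := exists_int_kernel q (by omega) (by rw [← hc]; omega) φ ψ h1 h2
  obtain ⟨B, hB, hB1, hB2⟩ := Nat.exists_prime_lt_and_le_two_mul (q ^ e) (pow_ne_zero _ hq.ne_zero)
  let ι := (Fintype.equivFinOfCardEq hm.symm).symm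
  have hq' : (0 : ℤ) < q := by exact_mod_cast hq.pos
  obtain ⟨X, Y, h6, h7, h8⟩ := simulate m (q ^ e) B ((q : ℤ) ^ 4) (by positivity) hB hB1.le
    (by
      have e1 : 12 * (m * (m + 1)) * (q ^ 4) ^ 3 ≤ B := by
        calc 12 * (m * (m + 1)) * (q ^ 4) ^ 3 ≤ q * (q ^ 4) ^ 3 :=
              Nat.mul_le_mul_right _ (by omega)
          _ = q ^ e := by rw [he]; ring
          _ ≤ B := hB1.le
      exact_mod_cast e1)
    (fun i => Φ (ι i)) (fun i => Ψ (ι i)) (fun i => h3 (ι i)) (fun i => h4 (ι i))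
    (fun x y z hxy hxz hyz => by
      have := h5 x y z hxy hxz hyz
      have e1 : (fun x y => ∑ i, Φ (ι i) x * Ψ (ι i) y) = fun x y => ∑ i, Φ i x * Ψ i y := by
        funext x y
        exact ι.sum_comp (fun i => Φ i x * Ψ i y)
      rw [e1]
      exact this)
  subst he
  refine ⟨B ^ (m + 1), pow_pos hB.pos _, ?_, X, Y, by exact_mod_cast h6, by exact_mod_cast h7,
    by exact_mod_cast h8⟩
  rw [pow_mul]
  refine Nat.pow_le_pow_left (hB2.trans ?_) _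
  calc 2 * q ^ 13 ≤ q * q ^ 13 := Nat.mul_le_mul_right _ hq.two_le
    _ = _ := by ring

end Vale.Agent.P036
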