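import Vale.Agent.P036.Prob
import Vale.Agent.P036.Kernel2
import Vale.Agent.P036.Divisor

namespace Vale.Agent.P036

open Finset

lemma exists_crt (Q : ℤ) (P : ℕ) [NeZero P] (hQ : 0 < Q) (h : IsCoprime Q P) :
    ∃ crt : ℤ → ZMod P → ℤ, ∀ w g, 0 ≤ crt w g ∧ crt w g < Q * P ∧ Q ∣ crt w g - w ∧
      (crt w g : ZMod P) = g := by
  obtain ⟨a, b, hab⟩ := h
  have hN : 0 < Q * P := mul_pos hQ (by exact_mod_cast NeZero.pos P)
  refine ⟨fun w g => (w * b * P + g.val * a * Q) % (Q * P), fun w g =>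
    ⟨Int.emod_nonneg _ hN.ne', Int.emod_lt_of_pos _ hN, ?_, ?_⟩⟩
  · simp only [Int.emod_def]
    exact ⟨g.val * a - w * a - P * ((w * b * P + g.val * a * Q) / (Q * P)),
      by linear_combination w * hab⟩
  · have e := congrArg (Int.cast : ℤ → ZMod P) hab
    simp only [Int.emod_def]
    push_cast at e ⊢
    simp only [ZMod.natCast_self, mul_zero, add_zero, zero_mul, sub_zero, zero_add,
      ZMod.natCast_zmod_val] at e ⊢
    rw [mul_assoc, e, mul_one]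

lemma exists_prime_scale (f : ℕ → ℕ) (n : ℕ) (hf : Monotone f) (h : ∃ x, n ≤ f x)
    (h1 : f 1 < n) : ∃ p y : ℕ, p.Prime ∧ n ≤ f p ∧ f y < n ∧ p ≤ 4 * y := by
  classical
  have h2 := Nat.find_spec h
  have h3 : 1 < Nat.find h := by
    by_contra hx
    exact absurd (h2.trans (hf (not_lt.1 hx))) (not_le.2 h1)
  obtain ⟨p, hp, hp1, hp2⟩ := Nat.exists_prime_lt_and_le_two_mul (Nat.find h) (by omega)
  exact ⟨p, Nat.find h - 1, hp, h2.trans (hf hp1.le),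
    not_le.1 (Nat.find_min h (by omega)), by omega⟩

theorem exists_grid : ∃ T n0 : ℕ, 0 < T ∧ ∀ n, n0 ≤ n → ∃ q : ℕ, n ≤ q ^ T ∧
    ∃ (ι : Type) (J : Finset ι) (x y : ι → ℤ) (N : ℤ), n ≤ J.card ∧
      (∀ i, 0 ≤ x i ∧ x i < N) ∧ (∀ i, 0 ≤ y i ∧ y i < N) ∧
      ∀ i ∈ J, ∀ j ∈ J, ∀ k ∈ J, i ≠ j → i ≠ k → j ≠ k →
        2 * q * N ^ 2 ≤ n ^ 2 * |(x j - x i) * (y k - y i) - (x k - x i) * (y j - y i)| := by
  obtain ⟨K, qa, hK⟩ := exists_kernel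
  obtain ⟨T1, hT1⟩ : ∃ T1, T1 = 2 * K + 15 := ⟨_, rfl⟩
  obtain ⟨qb, hb⟩ := divB_of (2 * (4 * T1) + 1)
  obtain ⟨qc, hc⟩ := harB_of (2 * (4 * T1) + 1)
  obtain ⟨q0, hq0⟩ : ∃ q0, q0 = qa + qb + qc + 10000 := ⟨_, rfl⟩
  have hT0 : 4 * T1 ≠ 0 := by omega
  refine ⟨4 * T1, q0 ^ (4 * T1), by omega, fun n hn => ?_⟩
  obtain ⟨q, y1, hq, hnq, hy1, hqy⟩ := exists_prime_scale (fun x => x ^ (4 * T1)) n
    (fun _ _ h => Nat.pow_le_pow_left h _) ⟨n, Nat.le_self_pow hT0 n⟩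
    (lt_of_lt_of_le (Nat.pow_lt_pow_left (by omega) hT0) hn)
  have hqq : q0 ≤ q := (Nat.pow_le_pow_iff_left hT0).1 (hn.trans hnq)
  obtain ⟨Q0, hQ0, hQ0K, X, Y, hY, hcop, hker⟩ := hK q hq (by omega)
  obtain ⟨L, hL⟩ : ∃ L, L = 2 * q ^ 4 := ⟨_, rfl⟩
  have hq1 := hq.pos
  have hL0 : 0 < L := by rw [hL]; positivity
  obtain ⟨Z, hZ⟩ : ∃ Z, Z = 42 * q ^ 6 * (L * Q0) ^ 2 := ⟨_, rfl⟩
  have hZ0 : 0 < Z := by rw [hZ]; positivity
  have hZ1 : Z = 168 * q ^ 14 * Q0 ^ 2 := by rw [hZ, hL]; ring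
  have hZn : Z ^ 2 ≤ n := by
    have e1 : Z ≤ q ^ T1 := by
      calc Z = 168 * q ^ 14 * Q0 ^ 2 := hZ1
        _ ≤ q * q ^ 14 * (q ^ K) ^ 2 := by gcongr; omega
        _ = _ := by rw [hT1]; ring
    have e2 : 4 ^ (4 * T1) * (q ^ T1) ^ 2 ≤ 4 ^ (4 * T1) * n := by
      calc 4 ^ (4 * T1) * (q ^ T1) ^ 2 = 16 ^ (2 * T1) * q ^ (2 * T1) := by
            rw [show 16 = 4 ^ 2 by norm_num, ← pow_mul, ← pow_mul]; ring_nf
        _ ≤ q ^ (2 * T1) * q ^ (2 * T1) := by gcongr; omega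
        _ = q ^ (4 * T1) := by ring
        _ ≤ (4 * y1) ^ (4 * T1) := Nat.pow_le_pow_left hqy _
        _ = 4 ^ (4 * T1) * y1 ^ (4 * T1) := mul_pow _ _ _
        _ ≤ _ := Nat.mul_le_mul_left _ hy1.le
    exact (Nat.pow_le_pow_left e1 2).trans (Nat.le_of_mul_le_mul_left e2 (by positivity))
  have hZn' : Z ≤ n := (Nat.le_self_pow two_ne_zero Z).trans hZn
  have hn0 : 0 < n := by omega
  obtain ⟨P, y2, hP, hP1, hy2, hPy⟩ := exists_prime_scale (fun x => Z * x ^ 3) (16 * n ^ 2)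
    (fun _ _ h => Nat.mul_le_mul_left _ (Nat.pow_le_pow_left h _))
    ⟨16 * n ^ 2, (Nat.le_self_pow three_ne_zero _).trans (Nat.le_mul_of_pos_left _ hZ0)⟩
    (by nlinarith)
  have hP2 : Z * P ^ 3 ≤ 1024 * n ^ 2 := by
    calc Z * P ^ 3 ≤ Z * (4 * y2) ^ 3 := by gcongr
      _ = 64 * (Z * y2 ^ 3) := by ring
      _ ≤ _ := by omega
  have hP3 : 4 * n ≤ P ^ 2 := by
    refine (Nat.pow_le_pow_iff_left three_ne_zero).1 (Nat.le_of_mul_le_mul_left ?_ hn0)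
    calc n * (4 * n) ^ 3 = 64 * n ^ 4 := by ring
      _ ≤ 256 * n ^ 4 := by omega
      _ = (16 * n ^ 2) ^ 2 := by ring
      _ ≤ (Z * P ^ 3) ^ 2 := Nat.pow_le_pow_left hP1 2
      _ = Z ^ 2 * (P ^ 2) ^ 3 := by ring
      _ ≤ _ := Nat.mul_le_mul_right _ hZn
  have haZ : q ^ 13 ≤ Z := by
    calc q ^ 13 = 1 * q ^ 13 * 1 := by ring
      _ ≤ 168 * q ^ 14 * Q0 ^ 2 := by
        gcongr
        · norm_num
        · norm_num
        · exact Nat.one_le_pow _ _ hQ0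
      _ = Z := hZ1.symm
  have hQZ : 168 * Q0 ≤ Z := by
    calc 168 * Q0 = 168 * 1 * Q0 ^ 1 := by ring
      _ ≤ 168 * q ^ 14 * Q0 ^ 2 := by
        gcongr
        · exact Nat.one_le_pow _ _ hq1
        · norm_num
      _ = Z := hZ1.symm
  have hZP : Z ≤ P := (Nat.pow_le_pow_iff_left two_ne_zero).1 (by omega)
  obtain ⟨F, hF⟩ : ∃ F, F = 7 * L * Q0 * P := ⟨_, rfl⟩
  have hF0 : 0 < L * F := by rw [hF]; have := hP.pos; positivity
  obtain ⟨S, hS⟩ : ∃ S, S = 6 * (L * F) + 1 := ⟨_, rfl⟩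
  have hS2 : S ≤ 7 * L * F := by rw [mul_assoc]; omega
  have hN : S * Q0 * P ≤ F * F := by
    calc S * Q0 * P ≤ 7 * L * F * Q0 * P := by gcongr
      _ = F * (7 * L * Q0 * P) := by ring
      _ = _ := by rw [← hF]
  have hN2 : ((S : ℤ) * Q0 * P) ≤ (q : ℤ) ^ (2 * (4 * T1) + 1) := by
    have : S * Q0 * P ≤ q ^ (2 * (4 * T1) + 1) := by
      calc S * Q0 * P ≤ F * F := hN
        _ = 49 * 1 * ((L * Q0) ^ 2 * P ^ 2) := by rw [hF]; ring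
        _ ≤ (42 * P) * q ^ 6 * ((L * Q0) ^ 2 * P ^ 2) := by
          gcongr
          · omega
          · exact Nat.one_le_pow _ _ hq1
        _ = Z * P ^ 3 := by rw [hZ]; ring
        _ ≤ 1024 * n ^ 2 := hP2
        _ ≤ q * (q ^ (4 * T1)) ^ 2 := by gcongr; omega
        _ = _ := by ring
    exact_mod_cast this
  have := NeZero.mk hP.ne_zero
  obtain ⟨crt, hcrt⟩ := exists_crt ((S : ℤ) * Q0) P (by rw [hS]; positivity) (by
    refine IsCoprime.mul_left ⟨1, -(6 * L * (7 * L * Q0)), by rw [hS, hF]; push_cast; ring⟩ ?_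
    rw [Nat.isCoprime_iff_coprime, Nat.coprime_comm, hP.coprime_iff_not_dvd]
    exact Nat.not_dvd_of_pos_of_lt hQ0 (by omega))
  have hq' : (1 : ℝ) ≤ q := by exact_mod_cast hq1
  let D : Data :=
    { a := q ^ 13, P := P, u := 7 * L * Q0, Q0 := Q0, S := S, L := L, X := X, Y := Y, crt := crt,
      τ := q, H := q, hP := hP, hP5 := by omega, hu := by positivity, hQ0 := hQ0, hL := hL0,
      hS1 := by rw [← hF, mul_assoc]; omega, hS2 := hF ▸ hS2, hN := hF ▸ hN, hcrt := hcrt,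
      hY := hY, hcop := hcop, hker := by rw [hL]; exact_mod_cast hker,
      hτ := hb q (by omega) _ hN2, hH := hc q (by omega) _ hN2, hτ1 := hq', hH1 := hq' }
  obtain ⟨m, hm⟩ : ∃ m, m = 2 * n / q ^ 13 + 1 := ⟨_, rfl⟩
  have ha0 : 0 < q ^ 13 := by positivity
  have hm1 : 2 * n < q ^ 13 * m := hm ▸ Nat.lt_mul_div_succ _ ha0
  have hm2 : q ^ 13 * m ≤ 4 * n := by
    have := Nat.mul_div_le (2 * n) (q ^ 13)
    rw [hm, mul_add]; omega
  obtain ⟨J, x, y, h1, h2, h3, h4⟩ := D.exists_points m (hm2.trans hP3) (by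
    have e : 2880 * L * q * q * (q ^ 13 * m * m) ≤ S * Q0 * P ^ 2 := by
      refine Nat.le_of_mul_le_mul_left ?_ ha0
      calc q ^ 13 * (2880 * L * q * q * (q ^ 13 * m * m)) = 5760 * q ^ 6 * (q ^ 13 * m) ^ 2 := by
            rw [hL]; ring
        _ ≤ q * q ^ 6 * (4 * n) ^ 2 := by gcongr; omega
        _ = q ^ 7 * (16 * n ^ 2) := by ring
        _ ≤ q ^ 7 * (Z * P ^ 3) := Nat.mul_le_mul_left _ hP1
        _ = q ^ 13 * (6 * (L * F) * Q0 * P ^ 2) := by rw [hZ, hF]; ring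
        _ ≤ _ := by gcongr; omega
    simp only [D, Data.Q]
    exact_mod_cast e)
  have h5 : q ^ 13 * m ≤ 2 * J.card := h1
  refine ⟨q, hnq, _, J, x, y, D.Q * D.P, by omega, h2, h3, ?_⟩
  intro i hi j hj k hk hij hik hjk
  have e1 := h4 i hi j hj k hk hij hik hjk
  have e2 : 4 * q * L * (S * Q0 * P ^ 2) ≤ n ^ 2 := by
    refine Nat.le_of_mul_le_mul_left ?_ (show 0 < 1024 by norm_num)
    calc 1024 * (4 * q * L * (S * Q0 * P ^ 2)) ≤ 1024 * (4 * q * L * (7 * L * F * Q0 * P ^ 2)) := by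
          gcongr
      _ = 1024 * 392 * (q ^ 5 * ((L * Q0) ^ 2 * P ^ 3)) := by
          rw [hF]; nth_rw 1 [hL]; ring
      _ ≤ 42 * q * (q ^ 5 * ((L * Q0) ^ 2 * P ^ 3)) := Nat.mul_le_mul_right _ (by omega)
      _ = Z * P ^ 3 := by rw [hZ]; ring
      _ ≤ _ := hP2
  have e3 : 4 * (q : ℤ) * D.L * (D.Q * D.P ^ 2) ≤ (n : ℤ) ^ 2 := by
    simp only [D, Data.Q]
    exact_mod_cast e2
  have e4 := D.L_pos
  have e5 := D.Q_pos
  refine le_of_mul_le_mul_left ?_ (show 0 < 2 * (D.L : ℤ) by omega)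
  calc 2 * (D.L : ℤ) * (2 * q * (D.Q * D.P) ^ 2) = 4 * (q : ℤ) * D.L * (D.Q * D.P ^ 2) * D.Q := by
        ring
    _ ≤ (n : ℤ) ^ 2 * (2 * D.L * |(x j - x i) * (y k - y i) - (x k - x i) * (y j - y i)|) :=
        mul_le_mul e3 e1 e5.le (by positivity)
    _ = _ := by ring

end Vale.Agent.P036
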