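import Vale.Agent.P036.Triple2
import Vale.Agent.P036.Affine

namespace Vale.Agent.P036

open Finset Matrix

namespace Data

variable (D : Data) {ι : Type}

abbrev Om (ι : Type) : Type :=
  ((Fin 3 → ZMod D.P) × Matrix (Fin 3) (Fin 3) (ZMod D.P) × (ι → ZMod D.u)) × D.Sh

def pt (v : ι → Fin 3 → ZMod D.P) (w : D.Om ι) (i : ι) : D.Pt :=
  (w.1.1 + w.1.2.1 *ᵥ v i, w.1.2.2 i)

def proj (v : ι → Fin 3 → ZMod D.P) (i j k : ι) : D.Om ι →+ D.Om3 where
  toFun w := ((D.pt v w i, D.pt v w j, D.pt v w k), w.2)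
  map_zero' := by simp [pt]
  map_add' w w' := by
    simp only [pt, Prod.fst_add, Prod.snd_add, add_mulVec, Pi.add_apply, Prod.mk_add_mk,
      add_add_add_comm]

lemma proj_surj (v : ι → Fin 3 → ZMod D.P) {i j k : ι} (hij : i ≠ j) (hik : i ≠ k) (hjk : j ≠ k)
    (hv : crossProduct (v j - v i) (v k - v i) ≠ 0) : Function.Surjective (D.proj v i j k) := by
  classical
  rintro ⟨⟨d0, d1, d2⟩, w⟩
  obtain ⟨B, h1, h2⟩ := exists_mulVec hv (d1.1 - d0.1) (d2.1 - d0.1)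
  rw [mulVec_sub] at h1 h2
  refine ⟨((d0.1 - B *ᵥ v i, B, fun t => if t = i then d0.2 else if t = j then d1.2 else d2.2), w),
    ?_⟩
  simp only [proj, pt, AddMonoidHom.coe_mk, ZeroHom.coe_mk, if_true, if_neg hij.symm,
    if_neg hik.symm, if_neg hjk.symm, Prod.mk.injEq, and_true]
  refine ⟨Prod.ext (by simp) rfl, Prod.ext ?_ rfl, Prod.ext ?_ rfl⟩
  · simp only; linear_combination h1
  · simp only; linear_combination h2

theorem exists_points (m : ℕ) (h1 : D.a * m ≤ D.P ^ 2)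
    (h2 : 2880 * D.L * D.τ * D.H * ((D.a * m : ℕ) * m) ≤ D.Q * D.P ^ 2) :
    ∃ (J : Finset (Fin D.a × Fin m)) (x y : Fin D.a × Fin m → ℤ), D.a * m ≤ 2 * J.card ∧
      (∀ i, 0 ≤ x i ∧ x i < D.Q * D.P) ∧ (∀ i, 0 ≤ y i ∧ y i < D.Q * D.P) ∧
      ∀ i ∈ J, ∀ j ∈ J, ∀ k ∈ J, i ≠ j → i ≠ k → j ≠ k →
        D.Q ≤ 2 * D.L * |(x j - x i) * (y k - y i) - (x k - x i) * (y j - y i)| := by
  classical
  have hP5 := D.hP5
  obtain ⟨v, hv⟩ := exists_cap (F := ZMod D.P) (ι := Fin D.a × Fin m)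
    (by rw [ZMod.ringChar_zmod_n]; omega) (by simpa using h1)
  obtain ⟨n, hn⟩ : ∃ n, n = D.a * m := ⟨_, rfl⟩
  rw [← hn] at h2 ⊢
  have hcι : Fintype.card (Fin D.a × Fin m) = n := by simp [hn]
  obtain ⟨T, hT⟩ : ∃ T : Finset ((Fin D.a × Fin m) × (Fin D.a × Fin m) × (Fin D.a × Fin m)),
    T = univ.filter fun t => t.1 ≠ t.2.1 ∧ t.1 ≠ t.2.2 ∧ t.2.1 ≠ t.2.2 ∧ t.1.1 = t.2.1.1 :=
    ⟨_, rfl⟩
  have hTc : T.card ≤ n * (m * n) := by
    calc T.card ≤ (univ : Finset ((Fin D.a × Fin m) × Fin m × (Fin D.a × Fin m))).card := by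
          refine card_le_card_of_injOn (fun t => (t.1, t.2.1.2, t.2.2)) (fun _ _ => mem_univ _) ?_
          intro t ht t' ht' e
          simp only [hT, coe_filter, mem_univ, true_and, Set.mem_ofPred_eq] at ht ht'
          simp only [Prod.mk.injEq] at e
          exact Prod.ext e.1 (Prod.ext (Prod.ext (by rw [← ht.2.2.2, ← ht'.2.2.2, e.1]) e.2.1)
            e.2.2)
      _ = _ := by
          rw [card_univ, Fintype.card_prod, Fintype.card_prod (Fin m), hcι, Fintype.card_fin]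
  obtain ⟨bad, hbad⟩ : ∃ bad : D.Om (Fin D.a × Fin m) → Finset _,
    bad = fun w => T.filter fun t => D.Bad t.1.1 t.2.2.1 (D.proj v t.1 t.2.1 t.2.2 w) := ⟨_, rfl⟩
  obtain ⟨c, hc⟩ : ∃ c : ℝ, c = 720 * D.L * D.τ * D.H := ⟨_, rfl⟩
  obtain ⟨Z, hZ⟩ : ∃ Z : ℝ, Z = Fintype.card (D.Om (Fin D.a × Fin m)) := ⟨_, rfl⟩
  have hZ0 : 0 < Z := by rw [hZ]; exact_mod_cast Fintype.card_pos
  have hQP : (0 : ℝ) < D.Q * D.P ^ 2 := by
    have : (0 : ℝ) < D.Q := by exact_mod_cast D.Q_pos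
    have : (0 : ℝ) < D.P := by exact_mod_cast D.hP.pos
    positivity
  have hc0 : 0 ≤ c := by
    have := D.hτ1; have := D.hH1
    rw [hc]; positivity
  have hone : ∀ t ∈ T, ((univ.filter fun w => D.Bad t.1.1 t.2.2.1
      (D.proj v t.1 t.2.1 t.2.2 w)).card : ℝ) ≤ c * Z / (D.Q * D.P ^ 2) := by
    intro t ht
    simp only [hT, mem_filter, mem_univ, true_and] at ht
    have e1 := uniform _ (D.proj_surj v ht.1 ht.2.1 ht.2.2.1 (hv _ _ _ ht.1 ht.2.1 ht.2.2.1))
      (D.Bad t.1.1 t.2.2.1)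
    have e2 := D.bad_card t.1.1 t.2.2.1 (univ.filter (D.Bad t.1.1 t.2.2.1))
      (fun w hw => (mem_filter.1 hw).2)
    have e3 : (0 : ℝ) < Fintype.card D.Om3 := by exact_mod_cast Fintype.card_pos
    have e4 := congrArg (Nat.cast : ℕ → ℝ) e1
    push_cast at e4
    rw [← hZ] at e4
    rw [← hc] at e2
    rw [le_div_iff₀ hQP]
    refine le_of_mul_le_mul_right ?_ e3
    calc _ = ((univ.filter (D.Bad t.1.1 t.2.2.1)).card * (D.Q * D.P ^ 2) : ℝ) * Z := by
          rw [mul_right_comm, e4]; ring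
      _ ≤ c * Fintype.card D.Om3 * Z := mul_le_mul_of_nonneg_right e2 hZ0.le
      _ = _ := by ring
  have hsum : ∑ w, ((bad w).card : ℝ) ≤ n / 4 * Z := by
    calc ∑ w, ((bad w).card : ℝ) = ∑ t ∈ T, ((univ.filter fun w => D.Bad t.1.1 t.2.2.1
          (D.proj v t.1 t.2.1 t.2.2 w)).card : ℝ) := by
          simp only [hbad, card_filter, Nat.cast_sum]
          exact sum_comm
      _ ≤ T.card • (c * Z / (D.Q * D.P ^ 2)) := sum_le_card_nsmul _ _ _ hone
      _ ≤ (n * (m * n) : ℝ) * (c * Z / (D.Q * D.P ^ 2)) := by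
          rw [nsmul_eq_mul]
          exact mul_le_mul_of_nonneg_right (by exact_mod_cast hTc) (by positivity)
      _ ≤ _ := by
          rw [← mul_div_assoc, div_le_iff₀ hQP]
          have : 4 * c * (n * m) ≤ D.Q * D.P ^ 2 := by rw [hc]; linarith
          have e : (0 : ℝ) ≤ n / 4 * Z := by positivity
          calc _ = n / 4 * Z * (4 * c * (n * m)) := by ring
            _ ≤ _ := mul_le_mul_of_nonneg_left this e
  obtain ⟨G, hG⟩ : ∃ G : Finset (D.Om (Fin D.a × Fin m)),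
    G = univ.filter fun w => w.1.2.1.det ≠ 0 := ⟨_, rfl⟩
  have hGc : Z ≤ 2 * G.card := by
    have e1 := uniform (((AddMonoidHom.fst _ _).comp (AddMonoidHom.snd _ _)).comp
      (AddMonoidHom.fst _ _) : D.Om (Fin D.a × Fin m) →+ Matrix (Fin 3) (Fin 3) (ZMod D.P))
      (fun B => ⟨((0, B, 0), 0), rfl⟩) (fun B => B.det ≠ 0)
    have e2 := card_invertible (F := ZMod D.P) (by rwa [ZMod.card])
    have e3 : 0 < Fintype.card (Matrix (Fin 3) (Fin 3) (ZMod D.P)) := Fintype.card_pos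
    have e4 : G.card * Fintype.card (Matrix (Fin 3) (Fin 3) (ZMod D.P)) = _ := hG ▸ e1
    have e5 : Fintype.card (D.Om (Fin D.a × Fin m)) ≤ 2 * G.card := by
      refine Nat.le_of_mul_le_mul_right ?_ e3
      rw [mul_assoc, e4, mul_comm, ← mul_assoc]
      exact Nat.mul_le_mul_right _ e2
    rw [hZ]; exact_mod_cast e5
  have hGne : G.Nonempty := by
    rw [← card_pos]
    have : (0 : ℝ) < G.card := by linarith
    exact_mod_cast this
  obtain ⟨w, hw, hwb⟩ := exists_le_of_sum_le (f := fun w => ((bad w).card : ℝ))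
    (g := fun _ => (n / 2 : ℝ)) hGne (by
      refine (sum_le_sum_of_subset_of_nonneg (subset_univ G) fun _ _ _ => Nat.cast_nonneg _).trans
        (hsum.trans ?_)
      rw [sum_const, nsmul_eq_mul]
      have : (0 : ℝ) ≤ n := Nat.cast_nonneg _
      nlinarith)
  have hdet : w.1.2.1.det ≠ 0 := by simpa [hG] using hw
  refine ⟨univ \ (bad w).image (fun t => t.1), fun i => D.xc i.1 (D.pt v w i) w.2,
    fun i => D.yc i.1 (D.pt v w i) w.2, ?_, fun i => D.xc_bd _ _ _, fun i => D.yc_bd _ _ _, ?_⟩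
  · rw [card_univ_sdiff, hcι]
    have e1 : ((bad w).image (fun t => t.1)).card ≤ (bad w).card := card_image_le
    have e2 : 2 * (bad w).card ≤ n := by
      have : (2 * (bad w).card : ℝ) ≤ n := by linarith
      exact_mod_cast this
    omega
  have key : ∀ i ∈ univ \ (bad w).image (fun t => t.1), ∀ j k, i ≠ j → i ≠ k → j ≠ k →
      i.1 = j.1 → D.Q ≤ 2 * D.L *
        |D.det i.1 j.1 k.1 (D.pt v w i) (D.pt v w j) (D.pt v w k) w.2| := by
    intro i hi j k hij hik hjk ht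
    by_contra hlt
    apply (mem_sdiff.1 hi).2
    refine mem_image.2 ⟨(i, j, k), ?_, rfl⟩
    rw [hbad]
    refine mem_filter.2 ⟨by simp [hT, hij, hik, hjk, ht], ?_, ?_⟩
    · rw [← ht] at hlt
      exact not_le.1 hlt
    · have := cross_mulVec hdet (hv i j k hij hik hjk)
      simpa [proj, pt, mulVec_sub] using this
  intro i hi j hj k hk hij hik hjk
  change D.Q ≤ 2 * D.L * |D.det i.1 j.1 k.1 (D.pt v w i) (D.pt v w j) (D.pt v w k) w.2|
  by_cases e1 : i.1 = j.1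
  · exact key i hi j k hij hik hjk e1
  by_cases e2 : i.1 = k.1
  · have := key i hi k j hik hij hjk.symm e2
    rwa [det, abs_sub_comm] at this
  by_cases e3 : j.1 = k.1
  · have := key j hj k i hjk hij.symm hik.symm e3
    convert this using 3
    simp only [det]; ring
  exact D.det_distinct e1 e2 e3 _ _ _ _

end Data

end Vale.Agent.P036
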