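import Vale.Agent.P036.Count4
import Vale.Agent.P036.Kernel

namespace Vale.Agent.P036

open Finset

/-- All parameters of the random construction. -/
structure Data where
  a : ℕ
  P : ℕ
  u : ℕ
  Q0 : ℕ
  S : ℕ
  L : ℕ
  X : Fin a → ℤ
  Y : Fin a → ℤ
  crt : ℤ → ZMod P → ℤ
  τ : ℝ
  H : ℝ
  hP : P.Prime
  hP5 : 5 ≤ P
  hu : 0 < u
  hQ0 : 0 < Q0
  hL : 0 < L
  hS1 : 4 * L * (u * P) ≤ S
  hS2 : S ≤ 7 * L * (u * P)
  hN : S * Q0 * P ≤ (u * P) * (u * P)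
  hcrt : ∀ w g, 0 ≤ crt w g ∧ crt w g < (S : ℤ) * Q0 * P ∧ (S : ℤ) * Q0 ∣ crt w g - w ∧
    (crt w g : ZMod P) = g
  hY : ∀ x, 0 ≤ Y x ∧ Y x < Q0
  hcop : ∀ x y, x ≠ y → IsCoprime (Y x - Y y) Q0
  hker : ∀ x y z, x ≠ y → x ≠ z → y ≠ z → ∀ t : ℤ,
    (Q0 : ℤ) ≤ L * |cyc (fun x y => X x * Y y) x y z - Q0 * t|
  hτ : DivB ((S : ℤ) * Q0 * P) τ
  hH : HarB ((S : ℤ) * Q0 * P) H
  hτ1 : 1 ≤ τ
  hH1 : 1 ≤ H

namespace Data

variable (D : Data)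

lemma S_pos : 0 < D.S :=
  lt_of_lt_of_le (Nat.mul_pos (Nat.mul_pos (by norm_num) D.hL) (Nat.mul_pos D.hu D.hP.pos)) D.hS1

instance : Fact D.P.Prime := ⟨D.hP⟩
instance : NeZero D.u := ⟨D.hu.ne'⟩
instance : NeZero D.Q0 := ⟨D.hQ0.ne'⟩
instance : NeZero (D.S * D.Q0) := ⟨(Nat.mul_pos D.S_pos D.hQ0).ne'⟩

abbrev Pt : Type := (Fin 3 → ZMod D.P) × ZMod D.u
abbrev Sh : Type := ZMod D.Q0 × ZMod (D.S * D.Q0)

def F : ℤ := D.u * D.P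
def Q : ℤ := D.S * D.Q0

def al (d : D.Pt) : ℤ := (d.1 0).val + D.P * d.2.val
def be (d : D.Pt) : ℤ := (d.1 1).val
def rho (c : Fin D.a) (r : ZMod D.Q0) : ℤ := (D.X c + r.val * D.Y c) % D.Q0
def xc (c : Fin D.a) (d : D.Pt) (w : D.Sh) : ℤ := D.al d + D.S * D.rho c w.1 + D.Q * D.be d
def yc (c : Fin D.a) (d : D.Pt) (w : D.Sh) : ℤ := D.crt (D.Y c + w.2.val * D.xc c d w) (d.1 2)

lemma P_pos : (0 : ℤ) < D.P := by exact_mod_cast D.hP.pos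
lemma Q0_pos : (0 : ℤ) < D.Q0 := by exact_mod_cast D.hQ0
lemma L_pos : (0 : ℤ) < D.L := by exact_mod_cast D.hL
lemma F_pos : 0 < D.F := mul_pos (by exact_mod_cast D.hu) D.P_pos
lemma S_ge : 4 * D.L * D.F ≤ D.S := by rw [F]; exact_mod_cast D.hS1
lemma S_le : (D.S : ℤ) ≤ 7 * D.L * D.F := by rw [F]; exact_mod_cast D.hS2
lemma F_le_S : 2 * D.F ≤ D.S := by have := D.S_ge; have := D.L_pos; have := D.F_pos; nlinarith
lemma S_le_Q : (D.S : ℤ) ≤ D.Q := by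
  rw [Q]; have := D.Q0_pos; have := D.F_le_S; have := D.F_pos; nlinarith
lemma Q_pos : 0 < D.Q := by have := D.S_le_Q; have := D.F_le_S; have := D.F_pos; omega
lemma N_le : D.Q * D.P ≤ D.F * D.F := by rw [F, Q]; exact_mod_cast D.hN

lemma al_bd (d : D.Pt) : 0 ≤ D.al d ∧ D.al d < D.F := by
  have h1 : ((d.1 0).val : ℤ) < D.P := by exact_mod_cast ZMod.val_lt _
  have h2 : (d.2.val : ℤ) + 1 ≤ D.u := by exact_mod_cast ZMod.val_lt _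
  have := D.P_pos
  rw [al, F]
  exact ⟨by positivity, by nlinarith⟩

lemma be_bd (d : D.Pt) : 0 ≤ D.be d ∧ D.be d < D.P :=
  ⟨Int.natCast_nonneg _, by rw [be]; exact_mod_cast ZMod.val_lt _⟩

lemma rho_bd (c : Fin D.a) (r : ZMod D.Q0) : 0 ≤ D.rho c r ∧ D.rho c r < D.Q0 :=
  ⟨Int.emod_nonneg _ D.Q0_pos.ne', Int.emod_lt_of_pos _ D.Q0_pos⟩

lemma rho_eq (c : Fin D.a) (r : ZMod D.Q0) :
    ∃ k : ℤ, D.rho c r = D.X c + r.val * D.Y c - D.Q0 * k :=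
  ⟨(D.X c + r.val * D.Y c) / D.Q0, by rw [rho, Int.emod_def]⟩

lemma xc_bd (c : Fin D.a) (d : D.Pt) (w : D.Sh) : 0 ≤ D.xc c d w ∧ D.xc c d w < D.Q * D.P := by
  have h1 := D.al_bd d
  have h2 := D.be_bd d
  have h3 := D.rho_bd c w.1
  have h4 := D.F_le_S
  have h5 := D.Q_pos
  have h6 : (D.S : ℤ) * D.rho c w.1 ≤ D.S * (D.Q0 - 1) :=
    mul_le_mul_of_nonneg_left (by omega) (Int.natCast_nonneg _)
  have h7 : D.Q * D.be d ≤ D.Q * (D.P - 1) := mul_le_mul_of_nonneg_left (by omega) h5.le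
  have h8 : D.Q = D.S * D.Q0 := rfl
  have h9 := mul_nonneg (Int.natCast_nonneg D.S) h3.1
  have h10 := mul_nonneg h5.le h2.1
  rw [xc]
  constructor <;> nlinarith

lemma yc_bd (c : Fin D.a) (d : D.Pt) (w : D.Sh) : 0 ≤ D.yc c d w ∧ D.yc c d w < D.Q * D.P :=
  ⟨(D.hcrt _ _).1, (D.hcrt _ _).2.1⟩

lemma yc_eq (c : Fin D.a) (d : D.Pt) (w : D.Sh) :
    ∃ l : ℤ, D.yc c d w = D.Y c + w.2.val * D.xc c d w + D.Q * l := by
  obtain ⟨l, hl⟩ := (D.hcrt (D.Y c + w.2.val * D.xc c d w) (d.1 2)).2.2.1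
  exact ⟨l, by rw [yc, Q]; linarith⟩

lemma al_cast (d : D.Pt) : (D.al d : ZMod D.P) = d.1 0 := by simp [al]
lemma be_cast (d : D.Pt) : (D.be d : ZMod D.P) = d.1 1 := by simp [be]
lemma yc_cast (c : Fin D.a) (d : D.Pt) (w : D.Sh) : (D.yc c d w : ZMod D.P) = d.1 2 :=
  (D.hcrt _ _).2.2.2

lemma pt_ext {c c' : Fin D.a} {d d' : D.Pt} {w w' : D.Sh} (h0 : D.al d = D.al d')
    (h1 : D.be d = D.be d') (h2 : D.yc c d w = D.yc c' d' w') : d = d' := by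
  have e0 : d.1 0 = d'.1 0 := by rw [← al_cast, h0, al_cast]
  have e1 : d.1 1 = d'.1 1 := by rw [← be_cast, h1, be_cast]
  have e2 : d.1 2 = d'.1 2 := by rw [← D.yc_cast c d w, h2, yc_cast]
  refine Prod.ext (funext fun i => by fin_cases i <;> assumption) ?_
  rw [al, al, e0, add_right_inj, mul_right_inj' D.P_pos.ne'] at h0
  exact ZMod.val_injective _ (by exact_mod_cast h0)

lemma sv_bd (w : D.Sh) : 0 ≤ (w.2.val : ℤ) ∧ (w.2.val : ℤ) < D.Q :=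
  ⟨Int.natCast_nonneg _, by rw [Q]; exact_mod_cast ZMod.val_lt _⟩

/-- Twice the signed area of the triangle of three points. -/
def det (c0 c1 c2 : Fin D.a) (d0 d1 d2 : D.Pt) (w : D.Sh) : ℤ :=
  (D.xc c1 d1 w - D.xc c0 d0 w) * (D.yc c2 d2 w - D.yc c0 d0 w) -
    (D.xc c2 d2 w - D.xc c0 d0 w) * (D.yc c1 d1 w - D.yc c0 d0 w)

lemma det_distinct {c0 c1 c2 : Fin D.a} (h01 : c0 ≠ c1) (h02 : c0 ≠ c2) (h12 : c1 ≠ c2)
    (d0 d1 d2 : D.Pt) (w : D.Sh) : D.Q ≤ 2 * D.L * |D.det c0 c1 c2 d0 d1 d2 w| := by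
  obtain ⟨k0, hk0⟩ := D.rho_eq c0 w.1
  obtain ⟨k1, hk1⟩ := D.rho_eq c1 w.1
  obtain ⟨k2, hk2⟩ := D.rho_eq c2 w.1
  obtain ⟨l0, hl0⟩ := D.yc_eq c0 d0 w
  obtain ⟨l1, hl1⟩ := D.yc_eq c1 d1 w
  obtain ⟨l2, hl2⟩ := D.yc_eq c2 d2 w
  obtain ⟨e, he⟩ : ∃ e, e = (D.al d1 - D.al d0) * (D.Y c2 - D.Y c0) -
    (D.al d2 - D.al d0) * (D.Y c1 - D.Y c0) := ⟨_, rfl⟩
  obtain ⟨t, ht⟩ : ∃ t, t = -((D.xc c1 d1 w - D.xc c0 d0 w) * (l2 - l0) -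
    (D.xc c2 d2 w - D.xc c0 d0 w) * (l1 - l0) +
    ((D.be d1 - k1 - D.be d0 + k0) * (D.Y c2 - D.Y c0) -
      (D.be d2 - k2 - D.be d0 + k0) * (D.Y c1 - D.Y c0))) := ⟨_, rfl⟩
  have key : D.det c0 c1 c2 d0 d1 d2 w =
      e + D.S * (cyc (fun x y => D.X x * D.Y y) c0 c1 c2 - D.Q0 * t) := by
    rw [det, hl0, hl1, hl2, he, ht, cyc]
    simp only [xc, hk0, hk1, hk2, Q]
    ring
  have h1 := D.hker c0 c1 c2 h01 h02 h12 t
  obtain ⟨z, hz⟩ : ∃ z, z = cyc (fun x y => D.X x * D.Y y) c0 c1 c2 - D.Q0 * t := ⟨_, rfl⟩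
  rw [← hz] at key h1
  have hb : ∀ (d d' : D.Pt) (c c' : Fin D.a),
      |(D.al d - D.al d') * (D.Y c - D.Y c')| ≤ D.F * D.Q0 := by
    intro d d' c c'
    have := D.al_bd d; have := D.al_bd d'; have := D.hY c; have := D.hY c'
    rw [abs_mul]
    exact mul_le_mul (abs_le.2 (by omega)) (abs_le.2 (by omega)) (abs_nonneg _) D.F_pos.le
  have h2 : |e| ≤ 2 * (D.F * D.Q0) := by
    rw [he]
    exact (abs_sub _ _).trans (by linarith [hb d1 d0 c2 c0, hb d2 d0 c1 c0])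
  have h3 : (D.S : ℤ) * |z| ≤ |D.det c0 c1 c2 d0 d1 d2 w| + |e| := by
    have := abs_sub (D.det c0 c1 c2 d0 d1 d2 w) e
    rwa [key, add_sub_cancel_left, abs_mul, abs_of_nonneg (Int.natCast_nonneg _), ← key] at this
  have h4 := D.S_ge
  have h5 := D.L_pos
  have h6 := D.Q0_pos
  have h7 : (D.S : ℤ) * D.Q0 ≤ D.S * (D.L * |z|) :=
    mul_le_mul_of_nonneg_left h1 (Int.natCast_nonneg _)
  have h8 := mul_le_mul_of_nonneg_left (h3.trans (add_le_add le_rfl h2)) h5.le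
  have h9 := mul_le_mul_of_nonneg_right h4 h6.le
  rw [Q]
  nlinarith

lemma minors {c0 c1 c2 : Fin D.a} {d0 d1 d2 : D.Pt} (w : D.Sh)
    (h : crossProduct (d1.1 - d0.1) (d2.1 - d0.1) ≠ 0)
    (h1 : (D.al d1 - D.al d0) * (D.be d2 - D.be d0) = (D.al d2 - D.al d0) * (D.be d1 - D.be d0))
    (h2 : (D.al d1 - D.al d0) * (D.yc c2 d2 w - D.yc c0 d0 w) =
      (D.al d2 - D.al d0) * (D.yc c1 d1 w - D.yc c0 d0 w))
    (h3 : (D.be d1 - D.be d0) * (D.yc c2 d2 w - D.yc c0 d0 w) =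
      (D.be d2 - D.be d0) * (D.yc c1 d1 w - D.yc c0 d0 w)) : False := by
  apply h
  have e1 := congrArg (Int.cast : ℤ → ZMod D.P) h1
  have e2 := congrArg (Int.cast : ℤ → ZMod D.P) h2
  have e3 := congrArg (Int.cast : ℤ → ZMod D.P) h3
  simp only [Int.cast_mul, Int.cast_sub, al_cast, be_cast, yc_cast] at e1 e2 e3
  rw [cross_apply]
  funext i
  fin_cases i
  · simp only [Pi.sub_apply, Fin.zero_eta, Matrix.cons_val_zero, Pi.zero_apply]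
    linear_combination e3
  · simp only [Pi.sub_apply, Fin.mk_one, Matrix.cons_val_one, Matrix.cons_val_zero, Pi.zero_apply]
    linear_combination -e2
  · simp only [Pi.sub_apply, Fin.reduceFinMk, Matrix.cons_val, Pi.zero_apply]
    linear_combination e1

end Data

end Vale.Agent.P036
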