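import Vale.Agent.P036.Triple

namespace Vale.Agent.P036

open Finset

lemma digit_zero {a b Q : ℤ} (ha : |a| < Q) (h : a + Q * b = 0) : a = 0 ∧ b = 0 := by
  have h1 : a = 0 := Int.eq_zero_of_abs_lt_dvd ⟨-b, by linarith⟩ ha
  have h2 := abs_nonneg a
  rw [h1, zero_add] at h
  exact ⟨h1, (mul_eq_zero.1 h).resolve_left (by omega)⟩

lemma same_degenerate {a1 b1 a2 b2 V V' s Q : ℤ} (h1 : |a1| < Q) (h2 : |a2| < Q)
    (hΔ : a1 * b2 = a2 * b1) (hV : Q ∣ V - s * (a1 + Q * b1)) (hV' : Q ∣ V' - s * (a2 + Q * b2))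
    (hd : 2 * |(a1 + Q * b1) * V' - (a2 + Q * b2) * V| < Q) :
    a1 * V' = a2 * V ∧ b1 * V' = b2 * V := by
  obtain ⟨l1, hl1⟩ := hV
  obtain ⟨l2, hl2⟩ := hV'
  have h0 : (a1 + Q * b1) * V' - (a2 + Q * b2) * V = 0 := by
    refine Int.eq_zero_of_abs_lt_dvd (m := Q) ⟨(a1 + Q * b1) * l2 - (a2 + Q * b2) * l1, ?_⟩ ?_
    · linear_combination (a1 + Q * b1) * hl2 - (a2 + Q * b2) * hl1
    · have := abs_nonneg ((a1 + Q * b1) * V' - (a2 + Q * b2) * V)
      linarith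
  by_cases hU : a1 + Q * b1 = 0
  · by_cases hU' : a2 + Q * b2 = 0
    · obtain ⟨rfl, rfl⟩ := digit_zero h1 hU
      obtain ⟨rfl, rfl⟩ := digit_zero h2 hU'
      simp
    · exact ⟨mul_left_cancel₀ hU' (by linear_combination a2 * h0 + Q * V' * hΔ),
        mul_left_cancel₀ hU' (by linear_combination b2 * h0 - V' * hΔ)⟩
  · exact ⟨mul_left_cancel₀ hU (by linear_combination a1 * h0 + Q * V * hΔ),
      mul_left_cancel₀ hU (by linear_combination b1 * h0 - V * hΔ)⟩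

namespace Data

variable (D : Data)

abbrev Om3 : Type := (D.Pt × D.Pt × D.Pt) × D.Sh

/-- A small triangle whose first two vertices share a type, not collinear modulo `P`. -/
def Bad (c0 c2 : Fin D.a) (w : D.Om3) : Prop :=
  2 * D.L * |D.det c0 c0 c2 w.1.1 w.1.2.1 w.1.2.2 w.2| < D.Q ∧
    crossProduct (w.1.2.1.1 - w.1.1.1) (w.1.2.2.1 - w.1.1.1) ≠ 0

lemma card_Pt : (Fintype.card D.Pt : ℝ) = D.F * D.P ^ 2 := by
  simp only [Pt, Fintype.card_prod, Fintype.card_pi, ZMod.card, prod_const, card_univ,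
    Fintype.card_fin, F]
  push_cast; ring

lemma xc_sub (c : Fin D.a) (d d' : D.Pt) (w : D.Sh) :
    D.xc c d w - D.xc c d' w = D.al d - D.al d' + D.Q * (D.be d - D.be d') := by
  simp only [xc]; ring

lemma yc_sub (c c' : Fin D.a) (d d' : D.Pt) (w : D.Sh) :
    D.Q ∣ D.yc c d w - D.yc c' d' w - (D.Y c - D.Y c') - w.2.val * (D.xc c d w - D.xc c' d' w) := by
  obtain ⟨l, hl⟩ := D.yc_eq c d w
  obtain ⟨l', hl'⟩ := D.yc_eq c' d' w
  exact ⟨l - l', by rw [hl, hl']; ring⟩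

lemma al_sub (d d' : D.Pt) : |D.al d - D.al d'| < D.F := by
  have := D.al_bd d; have := D.al_bd d'; rw [abs_lt]; omega

lemma be_sub (d d' : D.Pt) : |D.be d - D.be d'| < D.P := by
  have := D.be_bd d; have := D.be_bd d'; rw [abs_lt]; omega

lemma yc_sub_bd (c c' : Fin D.a) (d d' : D.Pt) (w : D.Sh) :
    |D.yc c d w - D.yc c' d' w| < D.Q * D.P := by
  have := D.yc_bd c d w; have := D.yc_bd c' d' w; rw [abs_lt]; omega

lemma bad_two {c0 c2 : Fin D.a} {w : D.Om3} (h : D.Bad c0 c2 w) :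
    2 * |D.det c0 c0 c2 w.1.1 w.1.2.1 w.1.2.2 w.2| < D.Q := by
  have h1 := h.1
  have h2 := D.L_pos
  have h3 := abs_nonneg (D.det c0 c0 c2 w.1.1 w.1.2.1 w.1.2.2 w.2)
  nlinarith

lemma bad_same (c : Fin D.a) (s : Finset D.Om3) (hs : ∀ w ∈ s, D.Bad c c w) :
    (s.card : ℝ) ≤ (D.F * D.P ^ 2 * D.Q0) * (720 * D.F ^ 2 * D.P ^ 2 * D.τ * D.H) := by
  classical
  have hτ := D.hτ1
  have hH := D.hH1
  refine card_le_mul_of_fiber s (fun w => (w.1.1, w.2.1)) _ _ (by positivity) ?_ ?_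
  · refine le_trans (Nat.cast_le.2 (card_le_univ _)) (le_of_eq ?_)
    rw [Fintype.card_prod, Nat.cast_mul, card_Pt, ZMod.card]
  intro w0 _
  obtain ⟨s0, hs0⟩ : ∃ s0, s0 = s.filter (fun w => (w.1.1, w.2.1) = (w0.1.1, w0.2.1)) := ⟨_, rfl⟩
  rw [← hs0]
  have hm : ∀ w ∈ s0, D.Bad c c w ∧ w.1.1 = w0.1.1 ∧ w.2.1 = w0.2.1 := by
    intro w hw
    rw [hs0, mem_filter, Prod.mk.injEq] at hw
    exact ⟨hs w hw.1, hw.2⟩
  have hdet : ∀ w : D.Om3, D.det c c c w.1.1 w.1.2.1 w.1.2.2 w.2 =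
      (D.al w.1.2.1 - D.al w.1.1 + D.Q * (D.be w.1.2.1 - D.be w.1.1)) *
        (D.yc c w.1.2.2 w.2 - D.yc c w.1.1 w.2) -
      (D.al w.1.2.2 - D.al w.1.1 + D.Q * (D.be w.1.2.2 - D.be w.1.1)) *
        (D.yc c w.1.2.1 w.2 - D.yc c w.1.1 w.2) := by
    intro w; rw [det, xc_sub, xc_sub]
  have hV : ∀ (d d' : D.Pt) (w : D.Sh), D.Q ∣ D.yc c d w - D.yc c d' w -
      w.2.val * (D.al d - D.al d' + D.Q * (D.be d - D.be d')) := by
    intro d d' w
    have := D.yc_sub c c d d' w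
    rwa [sub_self, sub_zero, xc_sub] at this
  have := count3 s0 (fun w => D.al w.1.2.1 - D.al w.1.1) (fun w => D.be w.1.2.1 - D.be w.1.1)
    (fun w => D.al w.1.2.2 - D.al w.1.1) (fun w => D.be w.1.2.2 - D.be w.1.1)
    (fun w => w.2.2.val) (fun w => D.yc c w.1.2.1 w.2 - D.yc c w.1.1 w.2)
    (fun w => D.yc c w.1.2.2 w.2 - D.yc c w.1.1 w.2) D.F D.P D.Q D.τ D.H D.F_pos D.P_pos
    (D.F_le_S.trans D.S_le_Q) D.N_le D.hτ D.hH (by linarith)
    (fun x hx y hy e1 e2 e3 e4 e5 e6 e7 => by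
      have p0 : x.1.1 = y.1.1 := by rw [(hm x hx).2.1, (hm y hy).2.1]
      have p1 : x.2 = y.2 := Prod.ext (by rw [(hm x hx).2.2, (hm y hy).2.2])
        (ZMod.val_injective _ (by exact_mod_cast e5))
      rw [p0] at e1 e2 e3 e4
      rw [p0, p1] at e6 e7
      exact Prod.ext (Prod.ext p0 (Prod.ext
        (D.pt_ext (sub_left_injective e1) (sub_left_injective e2) (sub_left_injective e6))
        (D.pt_ext (sub_left_injective e3) (sub_left_injective e4) (sub_left_injective e7)))) p1)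
    (fun _ _ => D.al_sub _ _) (fun _ _ => D.be_sub _ _) (fun _ _ => D.al_sub _ _)
    (fun _ _ => D.be_sub _ _)
    (fun w hw hΔ => by
      have hb := (hm w hw).1
      have h2 := D.bad_two hb
      rw [hdet] at h2
      have hFQ : D.F ≤ D.Q := by have := D.F_le_S; have := D.S_le_Q; have := D.F_pos; omega
      obtain ⟨e1, e2⟩ := same_degenerate ((D.al_sub _ _).trans_le hFQ)
        ((D.al_sub _ _).trans_le hFQ) hΔ (hV _ _ _) (hV _ _ _) h2
      exact D.minors w.2 hb.2 hΔ e1 e2)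
    (fun w _ => D.sv_bd w.2) (fun _ _ => D.yc_sub_bd _ _ _ _ _) (fun _ _ => D.yc_sub_bd _ _ _ _ _)
    (fun _ _ => hV _ _ _) (fun _ _ => hV _ _ _)
    (fun w hw => by rw [← hdet]; exact D.bad_two (hm w hw).1)
  exact_mod_cast this

lemma bad_diff {c0 c2 : Fin D.a} (hc : c0 ≠ c2) (s : Finset D.Om3)
    (hs : ∀ w ∈ s, D.Bad c0 c2 w) :
    (s.card : ℝ) ≤ (D.F * D.P ^ 2) * (48 * D.F * D.P * (D.Q * D.P) * D.τ * D.H) := by
  classical
  have hτ := D.hτ1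
  have hH := D.hH1
  have hF : (0 : ℝ) < D.F := by exact_mod_cast D.F_pos
  have hQ : (0 : ℝ) < D.Q := by exact_mod_cast D.Q_pos
  have hFS : D.F ≤ D.S := by have := D.F_le_S; have := D.F_pos; omega
  have hFQ : D.F ≤ D.Q := hFS.trans D.S_le_Q
  refine card_le_mul_of_fiber s (fun w => w.1.1) _ _ (by positivity) ?_ ?_
  · exact le_trans (Nat.cast_le.2 (card_le_univ _)) (le_of_eq D.card_Pt)
  intro w0 _
  obtain ⟨s0, hs0⟩ : ∃ s0, s0 = s.filter (fun w => w.1.1 = w0.1.1) := ⟨_, rfl⟩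
  rw [← hs0]
  have hm : ∀ w ∈ s0, D.Bad c0 c2 w ∧ w.1.1 = w0.1.1 := by
    intro w hw
    rw [hs0, mem_filter] at hw
    exact ⟨hs w hw.1, hw.2⟩
  have hdet : ∀ w : D.Om3, D.det c0 c0 c2 w.1.1 w.1.2.1 w.1.2.2 w.2 =
      (D.al w.1.2.1 - D.al w.1.1 + D.Q * (D.be w.1.2.1 - D.be w.1.1)) *
        (D.yc c2 w.1.2.2 w.2 - D.yc c0 w.1.1 w.2) -
      (D.xc c2 w.1.2.2 w.2 - D.xc c0 w.1.1 w.2) *
        (D.yc c0 w.1.2.1 w.2 - D.yc c0 w.1.1 w.2) := by
    intro w; rw [det, xc_sub]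
  have hV : ∀ (d d' : D.Pt) (w : D.Sh), D.Q ∣ D.yc c0 d w - D.yc c0 d' w -
      w.2.val * (D.al d - D.al d' + D.Q * (D.be d - D.be d')) := by
    intro d d' w
    have := D.yc_sub c0 c0 d d' w
    rwa [sub_self, sub_zero, xc_sub] at this
  have := count21 s0 (fun w => D.al w.1.2.1 - D.al w.1.1) (fun w => D.be w.1.2.1 - D.be w.1.1)
    (fun w => D.xc c2 w.1.2.2 w.2 - D.xc c0 w.1.1 w.2)
    (fun w => w.2.2.val) (fun w => D.yc c0 w.1.2.1 w.2 - D.yc c0 w.1.1 w.2)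
    (fun w => D.yc c2 w.1.2.2 w.2 - D.yc c0 w.1.1 w.2) (D.Y c2 - D.Y c0) D.F D.P D.Q D.τ D.H
    D.F_pos D.P_pos hFQ D.hτ D.hH hτ hH
    (fun x hx y hy e1 e2 e3 e5 e6 e7 => by
      have p0 : x.1.1 = y.1.1 := by rw [(hm x hx).2, (hm y hy).2]
      obtain ⟨k1, hk1⟩ := D.rho_eq c2 x.2.1
      obtain ⟨k2, hk2⟩ := D.rho_eq c0 x.2.1
      obtain ⟨k3, hk3⟩ := D.rho_eq c2 y.2.1
      obtain ⟨k4, hk4⟩ := D.rho_eq c0 y.2.1
      have e4 := e3
      simp only [xc, Q, p0] at e4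
      obtain ⟨f1, f2⟩ := digit_zero (a := D.al x.1.2.2 - D.al y.1.2.2) (Q := D.S)
        (b := D.rho c2 x.2.1 - D.rho c0 x.2.1 - (D.rho c2 y.2.1 - D.rho c0 y.2.1) +
          D.Q0 * (D.be x.1.2.2 - D.be y.1.2.2)) ((D.al_sub _ _).trans_le hFS)
        (by linear_combination e4)
      have f3 : (D.Q0 : ℤ) ∣ ((x.2.1.val : ℤ) - y.2.1.val) * (D.Y c2 - D.Y c0) :=
        ⟨k1 - k2 - k3 + k4 - (D.be x.1.2.2 - D.be y.1.2.2), by
          rw [hk1, hk2, hk3, hk4] at f2; linear_combination f2⟩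
      have f4 := (D.hcop c2 c0 hc.symm).symm.dvd_of_dvd_mul_right f3
      have f5 := Int.eq_zero_of_abs_lt_dvd f4 (by
        have := x.2.1.val_lt; have := y.2.1.val_lt; rw [abs_lt]; omega)
      have f6 : x.2.1 = y.2.1 := ZMod.val_injective _ (by omega)
      have p1 : x.2 = y.2 := Prod.ext f6 (ZMod.val_injective _ (by exact_mod_cast e5))
      rw [f6, sub_self, zero_add] at f2
      have f7 := (mul_eq_zero.1 f2).resolve_left D.Q0_pos.ne'
      rw [p0] at e1 e2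
      rw [p0, p1] at e6 e7
      exact Prod.ext (Prod.ext p0 (Prod.ext
        (D.pt_ext (sub_left_injective e1) (sub_left_injective e2) (sub_left_injective e6))
        (D.pt_ext (sub_eq_zero.1 f1) (sub_eq_zero.1 f7) (sub_left_injective e7)))) p1)
    (fun _ _ => D.al_sub _ _) (fun _ _ => D.be_sub _ _)
    (fun w hw hU => by
      have hb := (hm w hw).1
      have h2 := D.bad_two hb
      have h3 := hV w.1.2.1 w.1.1 w.2
      rw [hdet, hU, zero_mul, zero_sub, abs_neg, abs_mul] at h2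
      rw [hU, mul_zero, sub_zero] at h3
      obtain ⟨f1, f2⟩ := digit_zero ((D.al_sub _ _).trans_le hFQ) hU
      by_cases hU' : D.xc c2 w.1.2.2 w.2 - D.xc c0 w.1.1 w.2 = 0
      · simp only [xc, Q] at hU'
        obtain ⟨f3, f4⟩ := digit_zero (a := D.al w.1.2.2 - D.al w.1.1) (Q := D.S)
          (b := D.rho c2 w.2.1 - D.rho c0 w.2.1 + D.Q0 * (D.be w.1.2.2 - D.be w.1.1))
          ((D.al_sub _ _).trans_le hFS) (by linear_combination hU')
        obtain ⟨-, f5⟩ := digit_zero (by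
          have := D.rho_bd c2 w.2.1; have := D.rho_bd c0 w.2.1; rw [abs_lt]; omega) f4
        exact D.minors (c0 := c0) (c1 := c0) (c2 := c2) w.2 hb.2 (by rw [f1, f2]; ring)
          (by rw [f1, f3]; ring) (by rw [f2, f5]; ring)
      · have f3 := Int.eq_zero_of_abs_lt_dvd h3 (by
          have := Int.one_le_abs hU'
          have := abs_nonneg (D.yc c0 w.1.2.1 w.2 - D.yc c0 w.1.1 w.2)
          nlinarith)
        exact D.minors (c0 := c0) (c1 := c0) (c2 := c2) w.2 hb.2 (by rw [f1, f2]; ring)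
          (by rw [f1, f3]; ring) (by rw [f2, f3]; ring))
    (fun w _ => by
      have := D.xc_bd c2 w.1.2.2 w.2; have := D.xc_bd c0 w.1.1 w.2; rw [abs_le]; omega)
    (fun w _ => D.sv_bd w.2) (fun _ _ => D.yc_sub_bd _ _ _ _ _) (fun _ _ => D.yc_sub_bd _ _ _ _ _)
    (fun _ _ => hV _ _ _) (fun _ _ => D.yc_sub _ _ _ _ _)
    (fun w hw => by rw [← hdet]; exact D.bad_two (hm w hw).1)
  exact_mod_cast this

lemma bad_card (c0 c2 : Fin D.a) (s : Finset D.Om3) (hs : ∀ w ∈ s, D.Bad c0 c2 w) :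
    (s.card : ℝ) * (D.Q * D.P ^ 2) ≤ 720 * D.L * D.τ * D.H * Fintype.card D.Om3 := by
  have hτ := D.hτ1
  have hH := D.hH1
  have hF : (0 : ℝ) < D.F := by exact_mod_cast D.F_pos
  have hQ : (0 : ℝ) < D.Q := by exact_mod_cast D.Q_pos
  have hL : (1 : ℝ) ≤ D.L := by exact_mod_cast D.hL
  have hQe : (D.Q : ℝ) = D.S * D.Q0 := by rw [Q]; push_cast; rfl
  have hS : (D.S : ℝ) ≤ 7 * D.L * D.F := by exact_mod_cast D.S_le
  have hc : (Fintype.card D.Om3 : ℝ) = (D.F * D.P ^ 2) ^ 3 * (D.Q0 * D.Q) := by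
    simp only [Om3, Sh, Fintype.card_prod (D.Pt × D.Pt × D.Pt), Fintype.card_prod D.Pt,
      Fintype.card_prod (ZMod D.Q0), ZMod.card, Nat.cast_mul, card_Pt, hQe]
    ring
  have h1 : (s.card : ℝ) ≤ 720 * D.L * D.τ * D.H * (D.F ^ 3 * D.P ^ 4 * D.Q0) := by
    by_cases h : c0 = c2
    · subst h
      refine (D.bad_same c0 s hs).trans ?_
      calc _ = 720 * 1 * D.τ * D.H * (D.F ^ 3 * D.P ^ 4 * D.Q0) := by ring
        _ ≤ _ := by gcongr
    · refine (D.bad_diff h s hs).trans ?_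
      rw [hQe]
      calc _ = 48 * D.S * (D.τ * D.H * (D.F ^ 2 * D.P ^ 4 * D.Q0)) := by ring
        _ ≤ 48 * (15 * D.L * D.F) * (D.τ * D.H * (D.F ^ 2 * D.P ^ 4 * D.Q0)) := by
          gcongr; nlinarith
        _ = _ := by ring
  rw [hc]
  refine (mul_le_mul_of_nonneg_right h1 (by positivity)).trans (le_of_eq ?_)
  ring

end Data

end Vale.Agent.P036
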